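import Mathlib

/-!
# P225: global solutions of linear differential equations
-/

open MeasureTheory Set Filter
open scoped Topology

namespace Vale.Agent.P225.ODE

noncomputable section

variable {F : Type*} [NormedAddCommGroup F] [NormedSpace ℝ F]

/-- Picard's successive terms. -/
def picard (A : ℝ → F →L[ℝ] F) (y₀ : F) : ℕ → ℝ → F
  | 0 => fun _ => y₀
  | n + 1 => fun t => t • ∫ u in (0:ℝ)..1, A (t * u) (picard A y₀ n (t * u))

theorem continuous_picard {A : ℝ → F →L[ℝ] F} (hA : Continuous A) (y₀ : F) :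
    ∀ n, Continuous (picard A y₀ n)
  | 0 => continuous_const
  | n + 1 => by
    have h := continuous_picard hA y₀ n
    refine continuous_id.smul (intervalIntegral.continuous_parametric_intervalIntegral_of_continuous'
      (μ := volume) ?_ 0 1)
    have hm : Continuous fun p : ℝ × ℝ => p.1 * p.2 := by fun_prop
    exact (hA.comp hm).clm_apply (h.comp hm)

theorem norm_picard_le {A : ℝ → F →L[ℝ] F} (hA : Continuous A) (y₀ : F) {T K : ℝ} (hK : 0 ≤ K)
    (hb : ∀ t, |t| ≤ T → ‖A t‖ ≤ K) :
    ∀ n t, |t| ≤ T → ‖picard A y₀ n t‖ ≤ ‖y₀‖ * ((K * |t|) ^ n / n.factorial)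
  | 0, t, _ => by simp [picard]
  | n + 1, t, ht => by
    have hm : Continuous fun u : ℝ => t * u := by fun_prop
    have hc : Continuous fun u : ℝ => A (t * u) (picard A y₀ n (t * u)) :=
      (hA.comp hm).clm_apply ((continuous_picard hA y₀ n).comp hm)
    have hb' : ∀ u ∈ Icc (0:ℝ) 1, ‖A (t * u) (picard A y₀ n (t * u))‖ ≤
        (‖y₀‖ * K * ((K * |t|) ^ n / n.factorial)) * u ^ n := by
      intro u hu
      have hu' : |t * u| = |t| * u := by rw [abs_mul, abs_of_nonneg hu.1]
      have hle : |t * u| ≤ T := by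
        rw [hu']; exact (mul_le_of_le_one_right (abs_nonneg t) hu.2).trans ht
      refine ((A _).le_opNorm _).trans ((mul_le_mul (hb _ hle) (norm_picard_le hA y₀ hK hb n _ hle)
        (norm_nonneg _) hK).trans (le_of_eq ?_))
      rw [hu', mul_pow, mul_pow, mul_pow]; ring
    have h := intervalIntegral.integral_mono_on (μ := volume) zero_le_one (hc.norm.intervalIntegrable 0 1)
      ((Continuous.intervalIntegrable (by fun_prop) 0 1)) hb'
    rw [intervalIntegral.integral_const_mul, integral_pow] at h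
    simp only [picard, norm_smul, Real.norm_eq_abs]
    refine (mul_le_mul_of_nonneg_left
      ((intervalIntegral.norm_integral_le_integral_norm zero_le_one).trans h) (abs_nonneg t)).trans
      (le_of_eq ?_)
    rw [Nat.factorial_succ]
    have : (n.factorial : ℝ) ≠ 0 := by exact_mod_cast n.factorial_ne_zero
    push_cast
    field_simp
    ring

/-- The solution of `z' = A z` with value `y₀` at the origin. -/
def flow (A : ℝ → F →L[ℝ] F) (y₀ : F) (t : ℝ) : F := ∑' n, picard A y₀ n t

theorem flow_zero (A : ℝ → F →L[ℝ] F) (y₀ : F) : flow A y₀ 0 = y₀ := by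
  rw [flow, tsum_eq_single 0]
  · rfl
  · intro n hn
    obtain ⟨k, rfl⟩ := Nat.exists_eq_succ_of_ne_zero hn
    simp [picard]

theorem exists_norm_bound {A : ℝ → F →L[ℝ] F} (hA : Continuous A) (T : ℝ) :
    ∃ K, 0 ≤ K ∧ ∀ t, |t| ≤ T → ‖A t‖ ≤ K := by
  obtain ⟨K, hK⟩ := (isCompact_Icc (a := -T) (b := T)).exists_bound_of_continuousOn hA.continuousOn
  exact ⟨max K 0, le_max_right _ _, fun t ht => (hK t (abs_le.1 ht)).trans (le_max_left _ _)⟩

variable [CompleteSpace F]

theorem hasDerivAt_flow {A : ℝ → F →L[ℝ] F} (hA : Continuous A) (y₀ : F) (t : ℝ) :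
    HasDerivAt (flow A y₀) (A t (flow A y₀ t)) t := by
  obtain ⟨K, hK, hA'⟩ := exists_norm_bound hA (|t| + 1)
  set T := |t| + 1 with hT
  set g' : ℕ → ℝ → F := fun n r => Nat.casesOn (motive := fun _ => F) n 0
    (fun k => A r (picard A y₀ k r)) with hg'
  have hg : ∀ n r, HasDerivAt (picard A y₀ n) (g' n r) r := by
    intro n r
    cases n with
    | zero => exact hasDerivAt_const r y₀
    | succ k =>
      have hf : Continuous fun r => A r (picard A y₀ k r) := hA.clm_apply (continuous_picard hA y₀ k)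
      have he : picard A y₀ (k + 1) = fun x => ∫ v in (0:ℝ)..x, A v (picard A y₀ k v) := by
        funext x
        simp only [picard]
        rw [intervalIntegral.smul_integral_comp_mul_left (f := fun v => A v (picard A y₀ k v))]
        simp
      rw [he]
      exact (hf.integral_hasStrictDerivAt 0 r).hasDerivAt
  set u : ℕ → ℝ := fun n => Nat.casesOn (motive := fun _ => ℝ) n 0
    (fun k => K * (‖y₀‖ * ((K * T) ^ k / k.factorial))) with hu
  have hus : Summable u := by
    rw [← summable_nat_add_iff 1]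
    exact ((Real.summable_pow_div_factorial (K * T)).mul_left _).mul_left K
  have hb : ∀ n r, r ∈ Ioo (-T) T → ‖g' n r‖ ≤ u n := by
    intro n r hr
    have hr' : |r| ≤ T := (abs_lt.2 hr).le
    cases n with
    | zero => simp [g', u]
    | succ k =>
      refine ((A r).le_opNorm _).trans (mul_le_mul (hA' r hr')
        ((norm_picard_le hA y₀ hK hA' k r hr').trans ?_) (norm_nonneg _) hK)
      gcongr
  have hmem : t ∈ Ioo (-T) T := ⟨by linarith [neg_abs_le t], by linarith [le_abs_self t]⟩
  have hsum : Summable fun n => picard A y₀ n t :=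
    Summable.of_norm_bounded ((Real.summable_pow_div_factorial (K * |t|)).mul_left _)
      fun n => norm_picard_le hA y₀ hK hA' n t (by linarith)
  refine (hasDerivAt_tsum_of_isPreconnected hus isOpen_Ioo isPreconnected_Ioo (fun n r _ => hg n r) hb
    hmem hsum hmem).congr_deriv ?_
  have hs' : Summable fun n => g' n t := Summable.of_norm_bounded hus fun n => hb n t hmem
  rw [hs'.tsum_eq_zero_add, flow, ContinuousLinearMap.map_tsum _ hsum]
  simp [g']

omit [CompleteSpace F] in
theorem linear_unique {A : ℝ → F →L[ℝ] F} (hA : Continuous A) {f g : ℝ → F}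
    (hf : ∀ t, HasDerivAt f (A t (f t)) t) (hg : ∀ t, HasDerivAt g (A t (g t)) t) {a : ℝ}
    (h0 : f a = g a) : f = g := by
  funext t
  obtain ⟨K, hK, hA'⟩ := exists_norm_bound hA (|t| + |a| + 1)
  have hmem : t ∈ Ioo (-(|t| + |a| + 1)) (|t| + |a| + 1) :=
    ⟨by linarith [neg_abs_le t, abs_nonneg a], by linarith [le_abs_self t, abs_nonneg a]⟩
  refine (ODE_solution_unique_of_mem_Ioo (v := fun r y => A r y) (s := fun _ => univ)
    (K := K.toNNReal) (fun r hr => ?_) (t₀ := a)
    ⟨by linarith [abs_nonneg t, neg_abs_le a], by linarith [abs_nonneg t, le_abs_self a]⟩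
    (fun r _ => ⟨hf r, mem_univ _⟩) (fun r _ => ⟨hg r, mem_univ _⟩) h0) hmem
  refine ((A r).lipschitz.weaken ?_).lipschitzOnWith
  rw [← NNReal.coe_le_coe, coe_nnnorm, Real.coe_toNNReal K hK]
  exact hA' r (abs_lt.2 hr).le

end

end Vale.Agent.P225.ODE
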