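import Vale.Agent.P225.Core
import Vale.Agent.P225.ODE.Linear

/-!
# P225: one degree of the mode equations — definitions

`u'' + (2 + s) u' = Λ u + f` on a finite dimensional inner product space, `Λ` symmetric and
nonnegative, equal to `e (e + 2)` with `s = 0` for `t ≤ 0`.

* `Phi` is the regular fundamental solution (`e^{et}` for `t ≤ 0`), `Psi` its inverse,
  `P = Phi' Psi`; `y = u' - P u` satisfies `y' = -(P + 2 + s) y + f`.
* `xhat = Psi u + Omega y` satisfies `xhat' = Omega f`.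
-/

namespace Vale.Agent.P225.ODE

open MeasureTheory Set Filter
open scoped RealInnerProductSpace Topology

noncomputable section

variable (E : Type*) [NormedAddCommGroup E] [InnerProductSpace ℝ E]

/-- Coefficients of the equation of one degree. -/
structure Coeff where
  /-- Minus the Laplacian of the cross-section. -/
  lam : ℝ → E →L[ℝ] E
  /-- The drift. -/
  s : ℝ → ℝ
  /-- The exponent before time zero. -/
  e : ℝ
  e_nonneg : 0 ≤ e
  cont_lam : Continuous lam
  cont_s : Continuous s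
  symm : ∀ t x y, ⟪lam t x, y⟫ = ⟪x, lam t y⟫
  nonneg : ∀ t x, 0 ≤ ⟪x, lam t x⟫
  abs_s : ∀ t, |s t| ≤ 1 / 2
  start_lam : ∀ t ≤ 0, lam t = (e * (e + 2)) • ContinuousLinearMap.id ℝ E
  start_s : ∀ t ≤ 0, s t = 0

variable {E} (c : Coeff E)

namespace Coeff

/-- The system for `(X, X')`. -/
def field (t : ℝ) : (E →L[ℝ] E) × (E →L[ℝ] E) →L[ℝ] (E →L[ℝ] E) × (E →L[ℝ] E) :=
  (ContinuousLinearMap.snd ℝ _ _).prod
    ((-(2 + c.s t)) • ContinuousLinearMap.snd ℝ _ _ +
      (ContinuousLinearMap.compL ℝ E E E (c.lam t)).comp (ContinuousLinearMap.fst ℝ _ _))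

/-- The regular fundamental solution and its derivative. -/
def pair : ℝ → (E →L[ℝ] E) × (E →L[ℝ] E) :=
  flow c.field (ContinuousLinearMap.id ℝ E, c.e • ContinuousLinearMap.id ℝ E)

/-- The regular fundamental solution. -/
def Phi (t : ℝ) : E →L[ℝ] E := (c.pair t).1

/-- Its derivative. -/
def dPhi (t : ℝ) : E →L[ℝ] E := (c.pair t).2

/-- Its inverse. -/
def Psi (t : ℝ) : E →L[ℝ] E := Ring.inverse (c.Phi t)

/-- The logarithmic derivative of `Phi`. -/
def P (t : ℝ) : E →L[ℝ] E := c.dPhi t * c.Psi t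

/-- The transfer `u(r) ↦ u(t)` of regular solutions. -/
def prop (t r : ℝ) : E →L[ℝ] E := c.Phi t * c.Psi r

/-- The integrating factor `∫₀ᵗ (2 + s)`. -/
def mass (t : ℝ) : ℝ := ∫ r in (0 : ℝ)..t, (2 + c.s r)

/-- The part `u' - P u` of a state. -/
def ypart (u du : ℝ → E) (t : ℝ) : E := du t - c.P t (u t)

/-- A solution with forcing `f`. -/
def IsSol (f u du : ℝ → E) : Prop :=
  (∀ t, HasDerivAt u (du t) t) ∧
    ∀ t, HasDerivAt du (-(2 + c.s t) • du t + c.lam t (u t) + f t) t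

/-- A lower barrier: a subsolution of the Riccati equation after time zero, below `e` before. -/
structure Lower (l : ℝ → ℝ) : Prop where
  diff : Differentiable ℝ l
  start : ∀ t ≤ 0, l t ≤ c.e
  sub : ∀ t, 0 ≤ t → ∀ x : E,
    (deriv l t + l t ^ 2 + (2 + c.s t) * l t) * ‖x‖ ^ 2 ≤ ⟪x, c.lam t x⟫

/-- An upper barrier: a supersolution of the Riccati equation after time zero, above `e` before. -/
structure Upper (h : ℝ → ℝ) : Prop where
  diff : Differentiable ℝ h
  start : ∀ t ≤ 0, c.e ≤ h t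
  super : ∀ t, 0 ≤ t → ∀ x : E,
    ⟪x, c.lam t x⟫ ≤ (deriv h t + h t ^ 2 + (2 + c.s t) * h t) * ‖x‖ ^ 2

variable [FiniteDimensional ℝ E]

/-- The propagator of `y' = -(P + 2 + s) y` from time `r` to time `t`. -/
def yprop (t r : ℝ) : E →L[ℝ] E :=
  Real.exp (c.mass r - c.mass t) • ContinuousLinearMap.adjoint (c.prop r t)

/-- `∫ₜ^∞ e^{-mass} Psi Psi*`. -/
def gram (t : ℝ) : E →L[ℝ] E :=
  ∫ r in Ioi t, Real.exp (-c.mass r) • (c.Psi r * ContinuousLinearMap.adjoint (c.Psi r))

/-- The matrix turning forcing into motion of `xhat`. -/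
def Omega (t : ℝ) : E →L[ℝ] E :=
  Real.exp (c.mass t) • (c.gram t * ContinuousLinearMap.adjoint (c.Phi t))

/-- The adjusted coordinate. -/
def xhat (u du : ℝ → E) (t : ℝ) : E := c.Psi t (u t) + c.Omega t (c.ypart u du t)

end Coeff

end

end Vale.Agent.P225.ODE
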