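import Mathlib

/-!
P225: scalar barriers for the Riccati equation `q' + q² + (2 + s) q = lam`.

* `root s lam` is the instantaneous root `p` of `p² + (2 + s) p = lam`.
* `exists_riccati` gives the regular solution, equal to `j` for `t ≤ 0`.
* `IsRic.sub_le`, `IsRic.le_super` and `IsRic.mono` compare solutions.
* `IsRic.dist_curve`, `IsRic.dist_root` and `IsRic.dist_sol` bound the distance of a solution to
  a curve, to the root and to another solution, pointwise and in integral.
-/

namespace Vale.Agent.P225.Barrier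

open Set MeasureTheory
open scoped Interval

noncomputable section

/-- A global solution of `q' + q² + (2 + s) q = lam`. -/
def IsRic (s lam q : ℝ → ℝ) : Prop :=
  ∀ t, HasDerivAt q (lam t - q t ^ 2 - (2 + s t) * q t) t

theorem IsRic.continuous {s lam q : ℝ → ℝ} (h : IsRic s lam q) : Continuous q :=
  continuous_iff_continuousAt.2 fun t => (h t).continuousAt

/-- The instantaneous root of `p² + (2 + s) p = lam`. -/
def root (s lam : ℝ) : ℝ := Real.sqrt ((1 + s / 2) ^ 2 + lam) - (1 + s / 2)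

theorem root_eq {s lam : ℝ} (h : 0 ≤ lam) : root s lam ^ 2 + (2 + s) * root s lam = lam := by
  have := Real.sq_sqrt (show 0 ≤ (1 + s / 2) ^ 2 + lam by positivity)
  rw [root]
  linear_combination this

theorem root_nonneg {s lam : ℝ} (h : 0 ≤ lam) : 0 ≤ root s lam := by
  rw [root, sub_nonneg]
  exact (le_abs_self _).trans (Real.abs_le_sqrt (by linarith))

theorem root_round (j : ℕ) : root 0 ((j : ℝ) * (j + 2)) = j := by
  rw [root, show (1 + (0 : ℝ) / 2) ^ 2 + (j : ℝ) * (j + 2) = ((j : ℝ) + 1) ^ 2 by ring,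
    Real.sqrt_sq (by positivity)]
  ring

theorem root_mono (s : ℝ) {l₁ l₂ : ℝ} (h : l₁ ≤ l₂) : root s l₁ ≤ root s l₂ :=
  sub_le_sub_right (Real.sqrt_le_sqrt (by linarith)) _

theorem root_continuous : Continuous fun z : ℝ × ℝ => root z.1 z.2 := by unfold root; fun_prop

/-- The root moves by at most half the change of the drift. -/
theorem root_anti {s₁ s₂ lam : ℝ} (h : s₁ ≤ s₂) (h₁ : -2 ≤ s₁) (hl : 0 ≤ lam) :
    root s₂ lam ≤ root s₁ lam ∧ root s₁ lam ≤ root s₂ lam + (s₂ - s₁) / 2 := by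
  have e₁ := root_eq (s := s₁) hl
  have e₂ := root_eq (s := s₂) hl
  have p₁ := root_nonneg (s := s₁) hl
  have p₂ := root_nonneg (s := s₂) hl
  constructor
  · by_contra hc
    nlinarith [mul_nonneg (sub_nonneg.2 h) p₂, mul_nonneg (sub_nonneg.2 (not_le.1 hc).le) p₁,
      mul_nonneg (sub_nonneg.2 (not_le.1 hc).le) (show 0 ≤ 2 + s₁ by linarith),
      mul_pos (sub_pos.2 (not_le.1 hc)) (lt_of_le_of_lt p₁ (not_le.1 hc))]
  · have hs : (1 + s₁ / 2) ^ 2 ≤ (1 + s₂ / 2) ^ 2 :=
      pow_le_pow_left₀ (by linarith) (by linarith) 2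
    have := Real.sqrt_le_sqrt (show (1 + s₁ / 2) ^ 2 + lam ≤ (1 + s₂ / 2) ^ 2 + lam by linarith)
    simp only [root]
    linarith

theorem root_le_sqrt {s lam : ℝ} (hs : -2 ≤ s) (h : 0 ≤ lam) : root s lam ≤ Real.sqrt lam := by
  have e := root_eq (s := s) h
  have p := root_nonneg (s := s) h
  rw [← Real.sqrt_sq p]
  exact Real.sqrt_le_sqrt (by nlinarith)

theorem sqrt_le_root {s lam : ℝ} : Real.sqrt lam - (1 + s / 2) ≤ root s lam :=
  sub_le_sub_right (Real.sqrt_le_sqrt (by linarith [sq_nonneg (1 + s / 2)])) _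

/-- The derivative of the root along a path. -/
theorem hasDerivAt_root {s lam : ℝ → ℝ} {s' lam' t : ℝ} (hs : HasDerivAt s s' t)
    (hl : HasDerivAt lam lam' t) (hpos : 0 < lam t) :
    ∃ p', HasDerivAt (fun u => root (s u) (lam u)) p' t ∧
      p' = ((1 + s t / 2) * (s' / 2) + lam' / 2) / Real.sqrt ((1 + s t / 2) ^ 2 + lam t) - s' / 2 ∧
      |p'| ≤ |s'| + |lam'| / (2 * Real.sqrt (lam t)) := by
  have h2 : HasDerivAt (fun u => 1 + s u / 2) (s' / 2) t := (hs.div_const 2).const_add 1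
  have hne : 0 < (1 + s t / 2) ^ 2 + lam t := by positivity
  have hd := (((h2.pow 2).add hl).sqrt hne.ne').sub h2
  refine ⟨_, hd.congr_deriv ?_, rfl, ?_⟩
  · simp only [Nat.cast_ofNat, Pi.add_apply, Pi.pow_apply]; field_simp; ring
  set R := Real.sqrt ((1 + s t / 2) ^ 2 + lam t)
  have hR : 0 < R := Real.sqrt_pos.2 hne
  have hRl : Real.sqrt (lam t) ≤ R := Real.sqrt_le_sqrt (by linarith [sq_nonneg (1 + s t / 2)])
  have hRa : |1 + s t / 2| ≤ R := Real.abs_le_sqrt (by linarith)
  rw [add_div, div_div]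
  have h3 : |(1 + s t / 2) * (s' / 2) / R| ≤ |s'| / 2 := by
    rw [abs_div, abs_mul, abs_of_pos hR, div_le_iff₀ hR]
    calc |1 + s t / 2| * |s' / 2| ≤ R * |s' / 2| := mul_le_mul_of_nonneg_right hRa (abs_nonneg _)
      _ = |s'| / 2 * R := by rw [abs_div, abs_of_pos (by norm_num : (0 : ℝ) < 2)]; ring
  have h4 : |lam' / (2 * R)| ≤ |lam'| / (2 * Real.sqrt (lam t)) := by
    rw [abs_div, abs_of_pos (show 0 < 2 * R by positivity)]
    have := Real.sqrt_pos.2 hpos
    gcongr
  have h5 : |s' / 2| = |s'| / 2 := by rw [abs_div, abs_of_pos (by norm_num : (0 : ℝ) < 2)]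
  refine (abs_sub _ _).trans ?_
  linarith [abs_add_le ((1 + s t / 2) * (s' / 2) / R) (lam' / (2 * R))]

/-! ### First order inequalities -/

/-- A function with nonnegative derivative wherever it is negative stays nonnegative. -/
theorem nonneg_of_deriv {e e' : ℝ → ℝ} {a b : ℝ} (hc : ContinuousOn e (Icc a b))
    (hd : ∀ t ∈ Ico a b, HasDerivWithinAt e (e' t) (Ici t) t) (ha : 0 ≤ e a)
    (h : ∀ t ∈ Ico a b, e t < 0 → 0 ≤ e' t) {t : ℝ} (ht : t ∈ Icc a b) : 0 ≤ e t := by
  have key : ∀ ε > 0, -e t ≤ ε * Real.exp t := fun ε hε =>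
    image_le_of_deriv_right_lt_deriv_boundary (f' := fun u => -e' u)
      (B' := fun u => ε * Real.exp u) hc.neg (fun u hu => (hd u hu).neg)
      (show -e a ≤ ε * Real.exp a by linarith [mul_pos hε (Real.exp_pos a)])
      (fun u => (Real.hasDerivAt_exp u).const_mul ε)
      (fun u hu heq => by
        simp only [Pi.neg_apply] at heq
        linarith [h u hu (by linarith [mul_pos hε (Real.exp_pos u)]), mul_pos hε (Real.exp_pos u)])
      ht
  by_contra hn
  push Not at hn
  have hp := Real.exp_pos t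
  have := key (-e t / (2 * Real.exp t)) (div_pos (by linarith) (by positivity))
  rw [show -e t / (2 * Real.exp t) * Real.exp t = -e t / 2 by field_simp] at this
  linarith

/-- A positive supersolution dominates the absolute value of a solution of `e' + c e = r`. -/
theorem abs_le_super {e c r f f' : ℝ → ℝ} {a b m : ℝ} (hm : 0 ≤ m)
    (he : ∀ t ∈ Icc a b, HasDerivAt e (r t - c t * e t) t)
    (hc : ∀ t ∈ Icc a b, m ≤ c t) (hf : ∀ t ∈ Icc a b, HasDerivAt f (f' t) t)
    (hfa : |e a| ≤ f a) (hf0 : ∀ t ∈ Icc a b, 0 ≤ f t)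
    (hf' : ∀ t ∈ Icc a b, |r t| ≤ f' t + m * f t) {t : ℝ} (ht : t ∈ Icc a b) :
    |e t| ≤ f t := by
  have hd : ∀ u ∈ Icc a b, HasDerivAt (fun v => f v - e v) (f' u - (r u - c u * e u)) u :=
    fun u hu => (hf u hu).sub (he u hu)
  have hs : ∀ u ∈ Icc a b, HasDerivAt (fun v => f v + e v) (f' u + (r u - c u * e u)) u :=
    fun u hu => (hf u hu).add (he u hu)
  have h1 := nonneg_of_deriv (e := fun v => f v - e v)
    (fun u hu => (hd u hu).continuousAt.continuousWithinAt)
    (fun u hu => (hd u (Ico_subset_Icc_self hu)).hasDerivWithinAt)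
    (show 0 ≤ f a - e a by linarith [le_abs_self (e a)])
    (fun u hu hneg => by
      have hu' := Ico_subset_Icc_self hu
      nlinarith [hf' u hu', le_abs_self (r u), hc u hu', hf0 u hu',
        mul_le_mul_of_nonneg_right (hc u hu') (show 0 ≤ e u - f u by linarith)]) ht
  have h2 := nonneg_of_deriv (e := fun v => f v + e v)
    (fun u hu => (hs u hu).continuousAt.continuousWithinAt)
    (fun u hu => (hs u (Ico_subset_Icc_self hu)).hasDerivWithinAt)
    (show 0 ≤ f a + e a by linarith [neg_abs_le (e a)])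
    (fun u hu hneg => by
      have hu' := Ico_subset_Icc_self hu
      nlinarith [hf' u hu', neg_abs_le (r u), hc u hu', hf0 u hu',
        mul_le_mul_of_nonneg_right (hc u hu') (show 0 ≤ -e u - f u by linarith)]) ht
  rw [abs_le]
  constructor <;> linarith

/-- Bounds for `e' + c e = r` with `c ≥ m > 0`. -/
theorem decay {e c r : ℝ → ℝ} {a b m : ℝ} (hab : a ≤ b) (hm : 0 < m) (hr : Continuous r)
    (he : ∀ t ∈ Icc a b, HasDerivAt e (r t - c t * e t) t) (hc : ∀ t ∈ Icc a b, m ≤ c t) :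
    (∫ t in a..b, |e t|) ≤ (|e a| + ∫ t in a..b, |r t|) / m ∧
      |e b| ≤ |e a| * Real.exp (-m * (b - a)) + ∫ t in a..b, |r t| := by
  set g := fun u => Real.exp (m * (u - a)) * |r u| with hg
  set f := fun t => Real.exp (-m * (t - a)) * (|e a| + ∫ u in a..t, g u) with hfdef
  have hgc : Continuous g := by simp only [hg]; fun_prop
  have hint : ∀ t ∈ Icc a b, 0 ≤ ∫ u in a..t, g u := fun t ht =>
    intervalIntegral.integral_nonneg ht.1 fun u _ => by simp only [hg]; positivity
  have hf : ∀ t, HasDerivAt f (|r t| - m * f t) t := fun t => by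
    have h := (((hasDerivAt_id' t).sub_const a).const_mul (-m)).exp.mul
      ((intervalIntegral.integral_hasDerivAt_right (hgc.intervalIntegrable a t)
        (hgc.stronglyMeasurableAtFilter volume (nhds t)) hgc.continuousAt).const_add |e a|)
    refine h.congr_deriv ?_
    have hone : Real.exp (-m * (t - a)) * Real.exp (m * (t - a)) = 1 := by
      rw [← Real.exp_add, show -m * (t - a) + m * (t - a) = 0 by ring, Real.exp_zero]
    simp only [hfdef, hg]
    linear_combination |r t| * hone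
  have hfc : Continuous f := continuous_iff_continuousAt.2 fun t => (hf t).continuousAt
  have hfa : f a = |e a| := by simp [hfdef]
  have hle : ∀ t ∈ Icc a b, |e t| ≤ f t := fun t ht =>
    abs_le_super hm.le he hc (fun u _ => hf u) hfa.ge
      (fun u hu => mul_nonneg (Real.exp_pos _).le (add_nonneg (abs_nonneg _) (hint u hu)))
      (fun u _ => le_of_eq (by ring)) ht
  refine ⟨?_, ?_⟩
  · have hec : ContinuousOn (fun t => |e t|) (Icc a b) := fun t ht =>
      (he t ht).continuousAt.abs.continuousWithinAt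
    have h1 := intervalIntegral.integral_mono_on hab (hec.intervalIntegrable_of_Icc (μ := volume) hab)
      (hfc.intervalIntegrable a b) hle
    have h2 := intervalIntegral.integral_eq_sub_of_hasDerivAt (fun t _ => hf t)
      ((hr.abs.sub (hfc.const_mul m)).intervalIntegrable a b)
    rw [intervalIntegral.integral_sub (hr.abs.intervalIntegrable a b)
      ((hfc.const_mul m).intervalIntegrable a b), intervalIntegral.integral_const_mul] at h2
    have hfb : 0 ≤ f b := (abs_nonneg _).trans (hle b ⟨hab, le_rfl⟩)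
    rw [le_div_iff₀ hm]
    nlinarith
  · refine (hle b ⟨hab, le_rfl⟩).trans ?_
    simp only [hfdef, mul_add, ← intervalIntegral.integral_const_mul]
    refine add_le_add (by rw [mul_comm]) (intervalIntegral.integral_mono_on hab
      ((hgc.const_mul _).intervalIntegrable a b) (hr.abs.intervalIntegrable a b) fun u hu => ?_)
    simp only [hg]
    rw [← mul_assoc, ← Real.exp_add]
    refine mul_le_of_le_one_left (abs_nonneg _) (Real.exp_le_one_iff.2 ?_)
    nlinarith [hu.2]

/-- The uniform version of `decay`. -/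
theorem decay_sup {e c r : ℝ → ℝ} {a b m R : ℝ} (hm : 0 < m) (hR : 0 ≤ R)
    (he : ∀ t ∈ Icc a b, HasDerivAt e (r t - c t * e t) t) (hc : ∀ t ∈ Icc a b, m ≤ c t)
    (hr : ∀ t ∈ Icc a b, |r t| ≤ R) {t : ℝ} (ht : t ∈ Icc a b) :
    |e t| ≤ |e a| * Real.exp (-m * (t - a)) + R / m := by
  refine abs_le_super hm.le he hc (f := fun u => |e a| * Real.exp (-m * (u - a)) + R / m)
    (fun u _ => (((((hasDerivAt_id' u).sub_const a).const_mul (-m)).exp).const_mul |e a|).add_const _)
    ?_ (fun u _ => by positivity) (fun u hu => ?_) ht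
  · simp only [sub_self, mul_zero, Real.exp_zero, mul_one]
    linarith [div_nonneg hR hm.le]
  · rw [mul_add, mul_div_cancel₀ R hm.ne']
    nlinarith [hr u hu]

/-! ### Comparison of solutions -/

/-- A subsolution below a solution at the initial time stays below it. -/
theorem IsRic.sub_le {s lam q l l' : ℝ → ℝ} {a b : ℝ} (hq : IsRic s lam q)
    (hl : ∀ t ∈ Icc a b, HasDerivAt l (l' t) t)
    (hsub : ∀ t ∈ Icc a b, l' t + l t ^ 2 + (2 + s t) * l t ≤ lam t)
    (hc : ∀ t ∈ Icc a b, 0 ≤ q t + l t + 2 + s t) (ha : l a ≤ q a) {t : ℝ} (ht : t ∈ Icc a b) :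
    l t ≤ q t := by
  have hd : ∀ u ∈ Icc a b, HasDerivAt (fun v => q v - l v)
      (lam u - q u ^ 2 - (2 + s u) * q u - l' u) u := fun u hu => (hq u).sub (hl u hu)
  have := nonneg_of_deriv (e := fun v => q v - l v)
    (fun u hu => (hd u hu).continuousAt.continuousWithinAt)
    (fun u hu => (hd u (Ico_subset_Icc_self hu)).hasDerivWithinAt)
    (show 0 ≤ q a - l a by linarith)
    (fun u hu hneg => by
      nlinarith [hsub u (Ico_subset_Icc_self hu), mul_nonneg (hc u (Ico_subset_Icc_self hu))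
        (show 0 ≤ l u - q u by linarith)]) ht
  linarith

/-- A supersolution above a solution at the initial time stays above it. -/
theorem IsRic.le_super {s lam q h h' : ℝ → ℝ} {a b : ℝ} (hq : IsRic s lam q)
    (hh : ∀ t ∈ Icc a b, HasDerivAt h (h' t) t)
    (hsup : ∀ t ∈ Icc a b, lam t ≤ h' t + h t ^ 2 + (2 + s t) * h t)
    (hc : ∀ t ∈ Icc a b, 0 ≤ q t + h t + 2 + s t) (ha : q a ≤ h a) {t : ℝ} (ht : t ∈ Icc a b) :
    q t ≤ h t := by
  have hd : ∀ u ∈ Icc a b, HasDerivAt (fun v => h v - q v)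
      (h' u - (lam u - q u ^ 2 - (2 + s u) * q u)) u := fun u hu => (hh u hu).sub (hq u)
  have := nonneg_of_deriv (e := fun v => h v - q v)
    (fun u hu => (hd u hu).continuousAt.continuousWithinAt)
    (fun u hu => (hd u (Ico_subset_Icc_self hu)).hasDerivWithinAt)
    (show 0 ≤ h a - q a by linarith)
    (fun u hu hneg => by
      nlinarith [hsup u (Ico_subset_Icc_self hu), mul_nonneg (hc u (Ico_subset_Icc_self hu))
        (show 0 ≤ q u - h u by linarith)]) ht
  linarith

/-- The solution is monotone in the potential. -/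
theorem IsRic.mono {s lam μ q h : ℝ → ℝ} {a b : ℝ} (hq : IsRic s lam q) (hh : IsRic s μ h)
    (hle : ∀ t ∈ Icc a b, lam t ≤ μ t) (hc : ∀ t ∈ Icc a b, 0 ≤ q t + h t + 2 + s t)
    (ha : q a ≤ h a) {t : ℝ} (ht : t ∈ Icc a b) : q t ≤ h t :=
  hq.le_super (fun u _ => hh u) (fun u hu => by linarith [hle u hu]) hc ha ht

/-- Distance to an arbitrary curve with defect `p' + p² + (2 + s) p - lam`. -/
theorem IsRic.dist_curve {s lam q p p' : ℝ → ℝ} {a b m : ℝ} (hq : IsRic s lam q)
    (hp : ∀ t ∈ Icc a b, HasDerivAt p (p' t) t) (hab : a ≤ b) (hm : 0 < m)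
    (hc : ∀ t ∈ Icc a b, m ≤ q t + p t + 2 + s t)
    (hcont : Continuous fun t => lam t - p t ^ 2 - (2 + s t) * p t - p' t) :
    (∫ t in a..b, |q t - p t|) ≤
        (|q a - p a| + ∫ t in a..b, |lam t - p t ^ 2 - (2 + s t) * p t - p' t|) / m ∧
      |q b - p b| ≤ |q a - p a| * Real.exp (-m * (b - a)) +
        ∫ t in a..b, |lam t - p t ^ 2 - (2 + s t) * p t - p' t| :=
  decay (e := fun t => q t - p t) (c := fun t => q t + p t + 2 + s t) hab hm hcont
    (fun t ht => ((hq t).sub (hp t ht)).congr_deriv (by ring)) hc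

/-- Distance to the instantaneous root: `∫ |q - p| ≤ (|q a - p a| + ∫ |p'|) / m`. -/
theorem IsRic.dist_root {s lam q p' : ℝ → ℝ} {a b m : ℝ} (hq : IsRic s lam q)
    (hlam : ∀ t, 0 ≤ lam t) (hp : ∀ t ∈ Icc a b, HasDerivAt (fun u => root (s u) (lam u)) (p' t) t)
    (hp' : Continuous p') (hab : a ≤ b) (hm : 0 < m)
    (hc : ∀ t ∈ Icc a b, m ≤ q t + root (s t) (lam t) + 2 + s t) :
    (∫ t in a..b, |q t - root (s t) (lam t)|) ≤
        (|q a - root (s a) (lam a)| + ∫ t in a..b, |p' t|) / m ∧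
      |q b - root (s b) (lam b)| ≤
        |q a - root (s a) (lam a)| * Real.exp (-m * (b - a)) + ∫ t in a..b, |p' t| := by
  have e : (fun t => lam t - root (s t) (lam t) ^ 2 - (2 + s t) * root (s t) (lam t) - p' t) =
      fun t => -p' t := funext fun t => by
    show lam t - root (s t) (lam t) ^ 2 - (2 + s t) * root (s t) (lam t) - p' t = -p' t
    have := root_eq (s := s t) (hlam t)
    linarith
  have h := hq.dist_curve hp hab hm hc (by rw [e]; exact hp'.neg)
  simp only [congrFun e, abs_neg] at h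
  exact h

/-- Plateau convergence: the distance to the root decays to the size of the root's speed. -/
theorem IsRic.dist_root_sup {s lam q p' : ℝ → ℝ} {a b m R : ℝ} (hq : IsRic s lam q)
    (hlam : ∀ t, 0 ≤ lam t) (hp : ∀ t ∈ Icc a b, HasDerivAt (fun u => root (s u) (lam u)) (p' t) t)
    (hR : 0 ≤ R) (hpR : ∀ t ∈ Icc a b, |p' t| ≤ R) (hm : 0 < m)
    (hc : ∀ t ∈ Icc a b, m ≤ q t + root (s t) (lam t) + 2 + s t) {t : ℝ} (ht : t ∈ Icc a b) :
    |q t - root (s t) (lam t)| ≤
      |q a - root (s a) (lam a)| * Real.exp (-m * (t - a)) + R / m :=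
  decay_sup (e := fun u => q u - root (s u) (lam u))
    (c := fun u => q u + root (s u) (lam u) + 2 + s u) (r := fun u => -p' u) hm hR
    (fun u hu => ((hq u).sub (hp u hu)).congr_deriv (by
      have := root_eq (s := s u) (hlam u)
      linear_combination -this)) hc
    (fun u hu => by rw [abs_neg]; exact hpR u hu) ht

/-- Two solutions: `∫ |h - l| ≤ (|h a - l a| + ∫ |μ - lam|) / m`. -/
theorem IsRic.dist_sol {s lam μ l h : ℝ → ℝ} {a b m : ℝ} (hl : IsRic s lam l) (hh : IsRic s μ h)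
    (hlam : Continuous lam) (hμ : Continuous μ) (hab : a ≤ b) (hm : 0 < m)
    (hc : ∀ t ∈ Icc a b, m ≤ h t + l t + 2 + s t) :
    (∫ t in a..b, |h t - l t|) ≤ (|h a - l a| + ∫ t in a..b, |μ t - lam t|) / m ∧
      |h b - l b| ≤ |h a - l a| * Real.exp (-m * (b - a)) + ∫ t in a..b, |μ t - lam t| :=
  decay (e := fun t => h t - l t) (c := fun t => h t + l t + 2 + s t) hab hm (hμ.sub hlam)
    (fun t _ => ((hh t).sub (hl t)).congr_deriv (by ring)) hc

/-- Integrals of two exponents differ by at most the integral of the distance. -/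
theorem abs_integral_sub_le {q p : ℝ → ℝ} {a b : ℝ} (hq : Continuous q) (hp : Continuous p)
    (hab : a ≤ b) :
    |(∫ t in a..b, q t) - ∫ t in a..b, p t| ≤ ∫ t in a..b, |q t - p t| := by
  rw [← intervalIntegral.integral_sub (hq.intervalIntegrable a b) (hp.intervalIntegrable a b)]
  exact intervalIntegral.abs_integral_le_integral_abs hab

/-! ### The regular solution -/

/-- Solutions of the clamped equation on `[0, n]`. -/
theorem exists_clamped {s lam : ℝ → ℝ} {B l₁ : ℝ} (hB : 0 ≤ B) (hs : Continuous s)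
    (hs' : ∀ t, |s t| ≤ 1 / 2) (hlam : Continuous lam) (hl : ∀ t, |lam t| ≤ l₁) (x₀ : ℝ)
    {n : ℝ} (hn : 0 ≤ n) :
    ∃ g : ℝ → ℝ, g 0 = x₀ ∧ ∀ t ∈ Icc 0 n, HasDerivWithinAt g
      (lam t - max 0 (min (g t) B) ^ 2 - (2 + s t) * max 0 (min (g t) B)) (Icc 0 n) t := by
  have hc : ∀ x : ℝ, 0 ≤ max 0 (min x B) ∧ max 0 (min x B) ≤ B := fun x =>
    ⟨le_max_left _ _, max_le hB (min_le_right _ _)⟩
  have hl0 : 0 ≤ l₁ := (abs_nonneg _).trans (hl 0)
  set L : NNReal := ⟨l₁ + B ^ 2 + 3 * B, by positivity⟩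
  set F : ℝ → ℝ → ℝ := fun t x => lam t - max 0 (min x B) ^ 2 - (2 + s t) * max 0 (min x B)
  have hp : IsPicardLindelof F (⟨0, left_mem_Icc.2 hn⟩ : Icc (0 : ℝ) n) x₀ (L * n.toNNReal) 0 L
      (2 * B + 3).toNNReal := by
    refine ⟨fun t _ => (LipschitzWith.of_dist_le_mul fun x y => ?_).lipschitzOnWith,
      fun x _ => (by simp only [F]; fun_prop : Continuous fun t => F t x).continuousOn,
      fun t _ x _ => ?_, ?_⟩
    · have hd : |max 0 (min x B) - max 0 (min y B)| ≤ |x - y| := by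
        have h1 : LipschitzWith 1 fun z : ℝ => max 0 (min z B) :=
          (LipschitzWith.id.min_const B).const_max 0
        simpa [Real.dist_eq] using h1.dist_le_mul x y
      rw [Real.dist_eq, Real.dist_eq, Real.coe_toNNReal _ (by linarith)]
      simp only [F]
      rw [show ∀ u v : ℝ, lam t - u ^ 2 - (2 + s t) * u - (lam t - v ^ 2 - (2 + s t) * v) =
        -((u + v + 2 + s t) * (u - v)) from fun u v => by ring, abs_neg, abs_mul]
      refine mul_le_mul ?_ hd (abs_nonneg _) (by linarith)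
      rw [abs_le]
      constructor <;> linarith [hc x, hc y, abs_le.1 (hs' t)]
    · obtain ⟨h0, h1⟩ := hc x
      show |F t x| ≤ l₁ + B ^ 2 + 3 * B
      simp only [F]
      rw [abs_le]
      constructor <;> nlinarith [abs_le.1 (hs' t), abs_le.1 (hl t),
        mul_le_mul h1 h1 h0 hB]
    · simp only [NNReal.coe_mul, NNReal.coe_zero, sub_zero, Real.coe_toNNReal']
      refine mul_le_mul_of_nonneg_left ?_ L.coe_nonneg
      exact max_le (le_max_left _ _) (le_max_of_le_left (by linarith))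
  exact hp.exists_eq_forall_mem_Icc_hasDerivWithinAt₀

/-- The regular solution: it equals `j` for `t ≤ 0` and stays between the constant barriers. -/
theorem exists_riccati {s lam : ℝ → ℝ} {l₀ l₁ : ℝ} (j : ℕ) (hs : Continuous s)
    (hs' : ∀ t, |s t| ≤ 1 / 2) (hlam : Continuous lam) (hl₀ : 0 ≤ l₀)
    (hl : ∀ t, l₀ ≤ lam t ∧ lam t ≤ l₁)
    (hstart : ∀ t ≤ 0, s t = 0 ∧ lam t = (j : ℝ) * (j + 2)) :
    ∃ q, IsRic s lam q ∧ (∀ t ≤ 0, q t = j) ∧
      ∀ t, root (1 / 2) l₀ ≤ q t ∧ q t ≤ root (-(1 / 2)) l₁ := by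
  set A := root (1 / 2) l₀
  set B := root (-(1 / 2)) l₁
  obtain ⟨h0, h1⟩ := hl 0
  rw [(hstart 0 le_rfl).2] at h0 h1
  have hl1' : 0 ≤ l₁ := le_trans (by positivity) h1
  have hA : 0 ≤ A := root_nonneg hl₀
  have hB : 0 ≤ B := root_nonneg hl1'
  have eA : A ^ 2 + (2 + 1 / 2) * A = l₀ := root_eq hl₀
  have eB : B ^ 2 + (2 + -(1 / 2)) * B = l₁ := root_eq hl1'
  have hj : A ≤ j ∧ (j : ℝ) ≤ B := by
    constructor
    · calc A ≤ root 0 l₀ := (root_anti (by norm_num) (by norm_num) hl₀).1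
        _ ≤ j := root_round j ▸ root_mono 0 h0
    · calc (j : ℝ) ≤ root 0 l₁ := by
            have := root_mono 0 h1
            rwa [root_round] at this
        _ ≤ B := (root_anti (by norm_num) (by norm_num) hl1').1
  have hAB : A ≤ B := hj.1.trans hj.2
  have hex := fun N : ℕ => exists_clamped hB hs hs' hlam (l₁ := l₁)
    (fun t => abs_le.2 ⟨by linarith [hl t], (hl t).2⟩) (j : ℝ) (Nat.cast_nonneg N)
  choose g hg0 hgd using hex
  have hIci : ∀ (N : ℕ), ∀ t ∈ Ico (0 : ℝ) N, HasDerivWithinAt (g N)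
      (lam t - max 0 (min (g N t) B) ^ 2 - (2 + s t) * max 0 (min (g N t) B)) (Ici t) t :=
    fun N t ht => (hgd N t (Ico_subset_Icc_self ht)).mono_of_mem_nhdsWithin
      (Icc_mem_nhdsGE_of_mem ht)
  have hbd : ∀ (N : ℕ), ∀ t ∈ Icc (0 : ℝ) N, A ≤ g N t ∧ g N t ≤ B := by
    intro N t ht
    have hcts : ContinuousOn (g N) (Icc 0 N) := fun u hu => (hgd N u hu).continuousWithinAt
    constructor
    · have := nonneg_of_deriv (e := fun u => g N u - A) (hcts.sub continuousOn_const)
        (fun u hu => (hIci N u hu).sub_const A)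
        (show 0 ≤ g N 0 - A by rw [hg0]; linarith [hj.1])
        (fun u hu hneg => by
          have hu1 : max 0 (min (g N u) B) ≤ A :=
            max_le hA ((min_le_left _ _).trans (by linarith))
          have hu0 : 0 ≤ max 0 (min (g N u) B) := le_max_left _ _
          nlinarith [hl u, abs_le.1 (hs' u), mul_le_mul hu1 hu1 hu0 hA]) ht
      linarith
    · have := nonneg_of_deriv (e := fun u => B - g N u) (continuousOn_const.sub hcts)
        (fun u hu => (hIci N u hu).const_sub B)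
        (show 0 ≤ B - g N 0 by rw [hg0]; linarith [hj.2])
        (fun u hu hneg => by
          rw [max_eq_right (le_min (by linarith) hB), min_eq_right (by linarith)]
          nlinarith [hl u, abs_le.1 (hs' u)]) ht
      linarith
  have hsol : ∀ (N : ℕ), ∀ t ∈ Icc (0 : ℝ) N, HasDerivWithinAt (g N)
      (lam t - g N t ^ 2 - (2 + s t) * g N t) (Icc 0 N) t := fun N t ht => by
    obtain ⟨h2, h3⟩ := hbd N t ht
    have := hgd N t ht
    rwa [min_eq_left h3, max_eq_right (hA.trans h2)] at this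
  have huniq : ∀ N M : ℕ, N ≤ M → ∀ t ∈ Icc (0 : ℝ) N, g N t = g M t := by
    intro N M hNM t ht
    have hsub : Icc (0 : ℝ) N ⊆ Icc 0 M := Icc_subset_Icc le_rfl (by exact_mod_cast hNM)
    have hd : ∀ u ∈ Icc (0 : ℝ) N, HasDerivWithinAt (fun v => g N v - g M v)
        (lam u - g N u ^ 2 - (2 + s u) * g N u - (lam u - g M u ^ 2 - (2 + s u) * g M u))
        (Icc 0 N) u := fun u hu => (hsol N u hu).sub ((hsol M u (hsub hu)).mono hsub)
    have hd' : ∀ u ∈ Icc (0 : ℝ) N, HasDerivWithinAt (fun v => g M v - g N v)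
        (lam u - g M u ^ 2 - (2 + s u) * g M u - (lam u - g N u ^ 2 - (2 + s u) * g N u))
        (Icc 0 N) u := fun u hu => ((hsol M u (hsub hu)).mono hsub).sub (hsol N u hu)
    have hcN : ∀ u ∈ Ico (0 : ℝ) N, 0 ≤ g N u + g M u + 2 + s u := fun u hu => by
      linarith [(hbd N u (Ico_subset_Icc_self hu)).1, (hbd M u (hsub (Ico_subset_Icc_self hu))).1,
        (abs_le.1 (hs' u)).1]
    have p1 := nonneg_of_deriv (fun u hu => (hd u hu).continuousWithinAt)
      (fun u hu => (hd u (Ico_subset_Icc_self hu)).mono_of_mem_nhdsWithin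
        (Icc_mem_nhdsGE_of_mem hu))
      (by simp [hg0]) (fun u hu hneg => by
        nlinarith [mul_nonneg (hcN u hu) (show 0 ≤ g M u - g N u by linarith)]) ht
    have p2 := nonneg_of_deriv (fun u hu => (hd' u hu).continuousWithinAt)
      (fun u hu => (hd' u (Ico_subset_Icc_self hu)).mono_of_mem_nhdsWithin
        (Icc_mem_nhdsGE_of_mem hu))
      (by simp [hg0]) (fun u hu hneg => by
        nlinarith [mul_nonneg (hcN u hu) (show 0 ≤ g N u - g M u by linarith)]) ht
    linarith
  set q : ℝ → ℝ := fun t => if t ≤ 0 then (j : ℝ) else g (⌈t⌉₊ + 1) t with hq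
  have hqneg : ∀ t ≤ 0, q t = j := fun t ht => if_pos ht
  have hqpos : ∀ (N : ℕ), ∀ t ∈ Icc (0 : ℝ) N, q t = g N t := by
    intro N t ht
    rcases ht.1.eq_or_lt with h | h
    · rw [← h, hqneg 0 le_rfl, hg0]
    · simp only [hq, if_neg (not_le.2 h)]
      rcases le_total N (⌈t⌉₊ + 1) with h' | h'
      · exact (huniq _ _ h' t ht).symm
      · refine huniq _ _ h' t ⟨ht.1, ?_⟩
        push_cast
        linarith [Nat.le_ceil t]
  have hzero : lam 0 - (j : ℝ) ^ 2 - (2 + s 0) * j = 0 := by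
    rw [(hstart 0 le_rfl).1, (hstart 0 le_rfl).2]; ring
  refine ⟨q, fun t => ?_, hqneg, fun t => ?_⟩
  · rcases lt_trichotomy t 0 with h | h | h
    · have e : q =ᶠ[nhds t] fun _ => (j : ℝ) :=
        Filter.eventually_of_mem (Iio_mem_nhds h) fun u hu => hqneg u (le_of_lt hu)
      refine ((hasDerivAt_const t (j : ℝ)).congr_of_eventuallyEq e).congr_deriv ?_
      rw [hqneg t h.le, (hstart t h.le).1, (hstart t h.le).2]; ring
    · subst h
      rw [hqneg 0 le_rfl, hzero]
      have hL : HasDerivWithinAt q 0 (Iic 0) 0 :=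
        (hasDerivWithinAt_const 0 _ (j : ℝ)).congr (fun u hu => hqneg u hu) (hqneg 0 le_rfl)
      have hR : HasDerivWithinAt q 0 (Icc (0 : ℝ) (1 : ℕ)) 0 := by
        have := (hsol 1 0 ⟨le_rfl, by norm_num⟩).congr (fun u hu => hqpos 1 u hu)
          (hqpos 1 0 ⟨le_rfl, by norm_num⟩)
        rwa [hg0, hzero] at this
      refine (hL.union hR).hasDerivAt (Filter.mem_of_superset
        (Iio_mem_nhds (show (0 : ℝ) < (1 : ℕ) by norm_num)) fun u hu => ?_)
      rcases le_total u 0 with h' | h'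
      · exact Or.inl h'
      · exact Or.inr ⟨h', le_of_lt hu⟩
    · set N := ⌈t⌉₊ + 1
      have hN : t < N := by
        simp only [N]; push_cast; linarith [Nat.le_ceil t]
      have hmem : Icc (0 : ℝ) N ∈ nhds t := Icc_mem_nhds h hN
      have := ((hsol N t ⟨h.le, hN.le⟩).congr (fun u hu => hqpos N u hu)
        (hqpos N t ⟨h.le, hN.le⟩)).hasDerivAt hmem
      rwa [← hqpos N t ⟨h.le, hN.le⟩] at this
  · rcases le_total t 0 with h | h
    · rw [hqneg t h]; exact hj
    · have hN : t ∈ Icc (0 : ℝ) (⌈t⌉₊ : ℕ) := ⟨h, Nat.le_ceil t⟩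
      rw [hqpos _ t hN]
      exact hbd _ t hN

end

end Vale.Agent.P225.Barrier
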