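import Vale.Agent.P225.ODE.Defs
import Vale.Agent.P225.ODE.Barrier

/-!
P225: Riccati solutions of scalar bounds of the potential are barriers of the vector equation.
-/

namespace Vale.Agent.P225.ODE.Coeff

open Vale.Agent.P225.Barrier
open scoped RealInnerProductSpace

variable {E : Type*} [NormedAddCommGroup E] [InnerProductSpace ℝ E] {c : Coeff E}

/-- The solution for a lower bound of the potential is a lower barrier. -/
theorem lower_of_isRic {μ q : ℝ → ℝ} (hq : IsRic c.s μ q) (hstart : ∀ t ≤ 0, q t ≤ c.e)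
    (hμ : ∀ t, 0 ≤ t → ∀ x : E, μ t * ‖x‖ ^ 2 ≤ ⟪x, c.lam t x⟫) : c.Lower q where
  diff t := (hq t).differentiableAt
  start := hstart
  sub t ht x := by
    rw [(hq t).deriv]
    convert hμ t ht x using 1
    ring

/-- The solution for an upper bound of the potential is an upper barrier. -/
theorem upper_of_isRic {μ q : ℝ → ℝ} (hq : IsRic c.s μ q) (hstart : ∀ t ≤ 0, c.e ≤ q t)
    (hμ : ∀ t, 0 ≤ t → ∀ x : E, ⟪x, c.lam t x⟫ ≤ μ t * ‖x‖ ^ 2) : c.Upper q where
  diff t := (hq t).differentiableAt
  start := hstart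
  super t ht x := by
    rw [(hq t).deriv]
    convert hμ t ht x using 1
    ring

end Vale.Agent.P225.ODE.Coeff
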