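import Vale.Agent.P225.ODE.OfShape
import Vale.Agent.P225.FP.Defs

/-!
# P225: the unperturbed equations of all degrees as an `FP.Flow`
-/

namespace Vale.Agent.P225.ODE

open ContinuousLinearMap
open scoped RealInnerProductSpace

noncomputable section

variable {E : Type*} [NormedAddCommGroup E] [InnerProductSpace ℝ E] [FiniteDimensional ℝ E]
  (c : Coeff E)

namespace Coeff

/-- The fundamental solution of `y' = -(P + 2 + s) y`. -/
def Z (t : ℝ) : E →L[ℝ] E := Real.exp (-c.mass t) • adjoint (c.Psi t)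

/-- Its inverse. -/
def Zi (t : ℝ) : E →L[ℝ] E := Real.exp (c.mass t) • adjoint (c.Phi t)

theorem hasDerivAt_Z (t : ℝ) :
    HasDerivAt c.Z (-((2 + c.s t) • c.Z t + c.P t * c.Z t)) t := by
  have h1 : HasDerivAt (fun t => adjoint (c.Psi t)) (-(c.P t * adjoint (c.Psi t))) t := by
    have := (c.hasDerivAt_Psi t).star
    simp only [star_neg, star_mul, star_eq_adjoint, c.adjoint_P] at this
    exact this
  refine ((c.hasDerivAt_mass t).neg.exp.smul h1).congr_deriv ?_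
  simp only [Z, Pi.neg_apply, mul_smul_comm, smul_smul]
  module

theorem Z_mul_Zi (t r : ℝ) : c.Z t * c.Zi r = c.yprop t r := by
  rw [Z, Zi, yprop, smul_mul_smul_comm, ← Real.exp_add, show -c.mass t + c.mass r =
    c.mass r - c.mass t by ring]
  congr 1
  simp [prop, ← star_eq_adjoint, star_mul]

theorem Z_mul_Zi_self (t : ℝ) : c.Z t * c.Zi t = 1 := by
  rw [Z_mul_Zi, yprop, sub_self, Real.exp_zero, one_smul, prop_self]
  simp [← star_eq_adjoint]

theorem cont_Zi : Continuous c.Zi := by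
  unfold Zi
  simp only [← star_eq_adjoint]
  exact c.cont_mass.rexp.smul c.cont_Phi.star

theorem norm_yprop_le {l : ℝ → ℝ} (hl : c.Lower l) {t r : ℝ} (hrt : r ≤ t) :
    ‖c.yprop t r‖ ≤ Real.exp (-(3 / 2 * (t - r)) - ∫ q in r..t, l q) := by
  rw [yprop, norm_smul, Real.norm_eq_abs, Real.abs_exp, LinearIsometryEquiv.norm_map,
    sub_eq_add_neg (-(3 / 2 * (t - r))), Real.exp_add]
  exact mul_le_mul (Real.exp_le_exp.2 (by linarith [c.three_halves_le_mass_sub hrt]))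
    (c.norm_prop_le hl hrt) (norm_nonneg _) (Real.exp_pos _).le

theorem norm_P_le {h : ℝ → ℝ} (hh : c.Upper h) {M : ℝ} (hM : 0 ≤ M) (t : ℝ) (ht : h t ≤ M) :
    ‖c.P t‖ ≤ M :=
  opNorm_le_of_form _ (c.P_symm t) hM fun x => by
    rw [abs_of_nonneg (c.P_nonneg t x)]
    exact (c.P_le hh t x).trans (mul_le_mul_of_nonneg_right ht (sq_nonneg _))

end Coeff

/-- Conditions on the constants. -/
structure ConstsOk (C : FP.Consts) (B X σ ρ τ : ℝ) : Prop where
  σ_nonneg : 0 ≤ σ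
  σ_le_one : σ ≤ 1
  σ_sq : σ ^ 2 ≤ Real.exp (-4 * B)
  σ_lin : 5 / 4 * σ ≤ Real.exp (-4 * B)
  ρ_nonneg : 0 ≤ ρ
  ρ_le_one : ρ ≤ 1
  ρ_sq : ρ ^ 2 ≤ Real.exp (-4 * B)
  ρ_high : ρ ^ 2 * C.J + 5 / 2 * ρ ≤ Real.exp (-4 * B) * (C.J + 2)
  one_le_τ : 1 ≤ τ
  τ_sq : Real.exp (2 * X + 4 * B) ≤ τ ^ 2
  τ_lin : 4 / 3 * Real.exp (2 * X + 4 * B) ≤ τ
  τ_le : τ ≤ C.K
  μ_le : C.μ ≤ σ
  μ_le_ρ : C.μ ≤ ρ
  gain : C.Λ + 1 ≤ (ρ - C.μ) * C.J
  crude : τ * C.J ≤ C.Γ

theorem constsOk_standard {C : FP.Consts} (hK : 3 ≤ C.K) (hμ : C.μ ≤ 1 / 4) (hJ : 30 ≤ C.J)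
    (hΛ : C.Λ + 1 ≤ 63 / 100 * C.J) (hΓ : 3 * (C.J : ℝ) ≤ C.Γ) :
    ConstsOk C (1 / 20) (1 / 7) (16 / 25) (22 / 25) 3 := by
  have h1 : (4 / 5 : ℝ) ≤ Real.exp (-4 * (1 / 20)) := by
    have := Real.add_one_le_exp (-4 * (1 / 20) : ℝ); linarith
  have h2 : Real.exp (2 * (1 / 7) + 4 * (1 / 20)) ≤ (2 : ℝ) := by
    have h := Real.add_one_le_exp (-(2 * (1 / 7) + 4 * (1 / 20)) : ℝ)
    rw [Real.exp_neg] at h
    have := Real.exp_pos (2 * (1 / 7) + 4 * (1 / 20) : ℝ)
    rw [le_inv_comm₀ (by norm_num) this] at h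
    exact h.trans (by norm_num)
  have hJ' : (30 : ℝ) ≤ C.J := by exact_mod_cast hJ
  refine ⟨by norm_num, by norm_num, by linarith, by linarith, by norm_num, by norm_num,
    by linarith, ?_, by norm_num, by linarith, by linarith, hK, by linarith, by linarith, ?_, hΓ⟩
  · nlinarith [mul_le_mul_of_nonneg_right h1 (show (0 : ℝ) ≤ C.J + 2 by linarith)]
  · nlinarith

theorem ConstsOk.low {C : FP.Consts} {B X σ ρ τ : ℝ} (hc : ConstsOk C B X σ ρ τ) (j : ℕ) :
    σ ^ 2 * j + 5 / 2 * σ ≤ Real.exp (-4 * B) * (j + 2) := by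
  nlinarith [mul_le_mul_of_nonneg_right hc.σ_sq (Nat.cast_nonneg j : (0 : ℝ) ≤ j), hc.σ_lin]

theorem ConstsOk.high {C : FP.Consts} {B X σ ρ τ : ℝ} (hc : ConstsOk C B X σ ρ τ) {j : ℕ}
    (hj : C.J ≤ j) : ρ ^ 2 * j + 5 / 2 * ρ ≤ Real.exp (-4 * B) * (j + 2) := by
  have hj' : (0 : ℝ) ≤ (j : ℝ) - C.J := sub_nonneg.2 (by exact_mod_cast hj)
  nlinarith [mul_le_mul_of_nonneg_right hc.ρ_sq hj', hc.ρ_high]

variable (H : Harm) {sh : Shape} {C : FP.Consts} {B X σ ρ τ : ℝ}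

/-- The unperturbed equations of all degrees. -/
def flowOf (hb : ShapeBounds sh B X) (hc : ConstsOk C B X σ ρ τ) : FP.Flow H sh C where
  Pj j := (Coeff.ofShape H sh j hb.drift).P
  Φ j := (Coeff.ofShape H sh j hb.drift).Phi
  Φi j := (Coeff.ofShape H sh j hb.drift).Psi
  Z j := (Coeff.ofShape H sh j hb.drift).Z
  Zi j := (Coeff.ofShape H sh j hb.drift).Zi
  Ω j := (Coeff.ofShape H sh j hb.drift).Omega
  P_zero t := by
    refine norm_le_zero_iff.1 ((Coeff.ofShape H sh 0 hb.drift).norm_P_le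
      (hb.upper 0 hc.one_le_τ hc.τ_sq hc.τ_lin) le_rfl t (by simp))
  deriv_P j t := by
    refine ((Coeff.ofShape H sh j hb.drift).hasDerivAt_P t).congr_deriv ?_
    simp only [Coeff.ofShape, mul_def]
    abel
  deriv_Φ j t := (Coeff.ofShape H sh j hb.drift).hasDerivAt_Phi t
  deriv_Φi j t := ((Coeff.ofShape H sh j hb.drift).hasDerivAt_Psi t).congr_deriv (by simp [mul_def])
  Φ_Φi j t := (Coeff.ofShape H sh j hb.drift).Phi_mul_Psi t
  Φi_Φ j t := (Coeff.ofShape H sh j hb.drift).Psi_mul_Phi t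
  deriv_Z j t := (Coeff.ofShape H sh j hb.drift).hasDerivAt_Z t
  Z_Zi j t := (Coeff.ofShape H sh j hb.drift).Z_mul_Zi_self t
  Zi_cont j := (Coeff.ofShape H sh j hb.drift).cont_Zi
  deriv_Ω j _ _ t := by
    refine ((Coeff.ofShape H sh j hb.drift).hasDerivAt_Omega t).congr_deriv ?_
    rw [mul_add, mul_smul_comm, mul_one]
    simp only [Coeff.ofShape, mul_def]
    abel
  drift_le t := (hb.drift t).trans (by linarith [C.one_le_K])
  P_le j t := by
    refine ((Coeff.ofShape H sh j hb.drift).norm_P_le (hb.upper j hc.one_le_τ hc.τ_sq hc.τ_lin)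
      (mul_nonneg (zero_le_one.trans hc.one_le_τ) (Nat.cast_nonneg j)) t le_rfl).trans ?_
    exact mul_le_mul hc.τ_le (by linarith) (Nat.cast_nonneg j) (zero_le_one.trans C.one_le_K)
  Ω_le j _ _ t := by
    refine opNorm_le_bound _ (zero_le_one.trans C.one_le_K) fun x => ?_
    exact ((Coeff.ofShape H sh j hb.drift).norm_Phi_Omega_le_two_thirds t x).trans
      (mul_le_mul_of_nonneg_right (by linarith [C.one_le_K]) (norm_nonneg x))
  flow_le j hj t s := by
    refine le_trans ?_ (le_mul_of_one_le_left (Real.exp_pos _).le C.one_le_K)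
    rcases le_total t s with h | h
    · exact ((Coeff.ofShape H sh j hb.drift).norm_prop_le_one h).trans
        (Real.one_le_exp (mul_nonneg C.Γ_nonneg (abs_nonneg _)))
    · refine opNorm_le_bound _ (Real.exp_pos _).le fun x => ?_
      refine ((Coeff.ofShape H sh j hb.drift).norm_prop_le_exp
        (hb.upper j hc.one_le_τ hc.τ_sq hc.τ_lin) h x).trans
        (mul_le_mul_of_nonneg_right (Real.exp_le_exp.2 ?_) (norm_nonneg x))
      have hj' : (j : ℝ) ≤ C.J := by exact_mod_cast hj.le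
      have := mul_le_mul_of_nonneg_left hj' (zero_le_one.trans hc.one_le_τ)
      simp only [intervalIntegral.integral_const, smul_eq_mul, abs_of_nonneg (sub_nonneg.2 h)]
      nlinarith [hc.crude, sub_nonneg.2 h]
  future_le j hj t s h := by
    refine le_trans ?_ (le_mul_of_one_le_left (Real.exp_pos _).le C.one_le_K)
    refine ((Coeff.ofShape H sh j hb.drift).norm_prop_le
      (hb.lower j hc.ρ_nonneg hc.ρ_le_one (hc.high hj)) h).trans (Real.exp_le_exp.2 ?_)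
    have hj' : (C.J : ℝ) ≤ j := by exact_mod_cast hj
    have hμ := mul_le_mul_of_nonneg_left hj' (sub_nonneg.2 hc.μ_le_ρ)
    simp only [intervalIntegral.integral_const, smul_eq_mul]
    nlinarith [hc.gain, sub_nonneg.2 h]
  past_le j t s h := by
    refine le_trans ?_ (le_mul_of_one_le_left (Real.exp_pos _).le C.one_le_K)
    rw [← mul_def, (Coeff.ofShape H sh j hb.drift).Z_mul_Zi]
    refine ((Coeff.ofShape H sh j hb.drift).norm_yprop_le
      (hb.lower j hc.σ_nonneg hc.σ_le_one (hc.low j)) h).trans (Real.exp_le_exp.2 ?_)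
    have hμ := mul_le_mul_of_nonneg_right hc.μ_le (Nat.cast_nonneg j : (0 : ℝ) ≤ j)
    simp only [intervalIntegral.integral_const, smul_eq_mul]
    nlinarith [sub_nonneg.2 h]

end

end Vale.Agent.P225.ODE
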