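import Vale.Agent.P225.ODE.Omega
import Vale.Agent.P225.Sched.Potential

/-!
# P225: the coefficients of one degree of a shape path, with constant barriers
-/

namespace Vale.Agent.P225.ODE

open ContinuousLinearMap
open scoped RealInnerProductSpace

noncomputable section

variable {H : Harm} {sh : Shape}

/-- Uniform bounds of a shape path. -/
structure ShapeBounds (sh : Shape) (B X : ℝ) : Prop where
  drift : ∀ t, |sh.drift t| ≤ 1 / 2
  χ_nonneg : ∀ t, 0 ≤ sh.χ t
  χ_le : ∀ t, sh.χ t ≤ X
  β_le : ∀ t, |sh.β t| ≤ B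
  γ_le : ∀ a t, |sh.γ a t| ≤ B

theorem elAxis_skew (H : Harm) (j : ℕ) (a : Fin 6) (u v : V j) :
    ⟪Shape.elAxis H j a u, v⟫ = -⟪u, Shape.elAxis H j a v⟫ := by
  simp only [Shape.elAxis, sum_apply, smul_apply, sum_inner, inner_sum, real_inner_smul_left,
    inner_smul_right, H.skew_left, ← Finset.sum_neg_distrib, mul_neg]

theorem lam_symm (H : Harm) (sh : Shape) (j : ℕ) (t : ℝ) (x y : V j) :
    ⟪sh.lam H j t x, y⟫ = ⟪x, sh.lam H j t y⟫ := by
  simp only [Shape.lam, smul_apply, add_apply, sum_apply, neg_apply, comp_apply, id_apply,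
    inner_smul_right, real_inner_smul_left, inner_add_right, inner_add_left, inner_sum, sum_inner,
    inner_neg_right, inner_neg_left, elAxis_skew H, H.skew_right, neg_neg]

theorem continuous_lam (H : Harm) (sh : Shape) (j : ℕ) : Continuous (sh.lam H j) := by
  have hχ := sh.smooth_χ.continuous
  have hβ := sh.smooth_β.continuous
  have hγ := fun a => (sh.smooth_γ a).continuous
  unfold Shape.lam
  fun_prop

theorem lam_nonneg (H : Harm) (sh : Shape) (j : ℕ) (t : ℝ) (x : V j) :
    0 ≤ ⟪x, sh.lam H j t x⟫ := by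
  refine le_trans ?_ (Sched.form_lam_bounds sh H j t (|sh.β t| + ∑ a, |sh.γ a t|) x
    (le_add_of_nonneg_right (Finset.sum_nonneg fun a _ => abs_nonneg _)) fun a =>
      le_add_of_nonneg_of_le (abs_nonneg _)
        (Finset.single_le_sum (fun b _ => abs_nonneg (sh.γ b t)) (Finset.mem_univ a))).1
  positivity

theorem lam_start (H : Harm) (sh : Shape) (j : ℕ) {t : ℝ} (ht : t ≤ 0) :
    sh.lam H j t = ((j : ℝ) * (j + 2)) • ContinuousLinearMap.id ℝ (V j) := by
  obtain ⟨h1, h2, h3⟩ := sh.start t ht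
  refine ContinuousLinearMap.ext fun x => ?_
  simp [Shape.lam, h1, h2, h3]

/-- The coefficients of degree `j`. -/
def Coeff.ofShape (H : Harm) (sh : Shape) (j : ℕ) (hs : ∀ t, |sh.drift t| ≤ 1 / 2) :
    Coeff (V j) where
  lam := sh.lam H j
  s := sh.drift
  e := j
  e_nonneg := Nat.cast_nonneg j
  cont_lam := continuous_lam H sh j
  cont_s := Sched.continuous_drift sh
  symm := lam_symm H sh j
  nonneg := lam_nonneg H sh j
  abs_s := hs
  start_lam _ ht := lam_start H sh j ht
  start_s _ ht := Sched.drift_start sh ht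

/-- A constant multiple of the degree is a lower barrier. -/
theorem ShapeBounds.lower {B X σ : ℝ} (hb : ShapeBounds sh B X) (j : ℕ) (h0 : 0 ≤ σ) (h1 : σ ≤ 1)
    (h2 : σ ^ 2 * j + 5 / 2 * σ ≤ Real.exp (-4 * B) * (j + 2)) :
    (Coeff.ofShape H sh j hb.drift).Lower fun _ => σ * j where
  diff := differentiable_const _
  start _ _ := mul_le_of_le_one_left (Nat.cast_nonneg j) h1
  sub t _ x := by
    have hj : (0 : ℝ) ≤ j := Nat.cast_nonneg j
    refine le_trans ?_ (Sched.form_lam_bounds sh H j t B x (hb.β_le t) fun a => hb.γ_le a t).1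
    refine mul_le_mul_of_nonneg_right ?_ (sq_nonneg _)
    have he : 1 ≤ Real.exp (2 * sh.χ t) := Real.one_le_exp (by linarith [hb.χ_nonneg t])
    refine le_trans ?_ (mul_le_mul_of_nonneg_right
      (le_mul_of_one_le_left (Real.exp_pos _).le he) (by positivity))
    have hd : sh.drift t ≤ 1 / 2 := (abs_le.1 (hb.drift t)).2
    simp only [deriv_const', zero_add]
    show (σ * j) ^ 2 + (2 + sh.drift t) * (σ * j) ≤ _
    nlinarith [mul_le_mul_of_nonneg_right h2 hj,
      mul_le_mul_of_nonneg_right hd (mul_nonneg h0 hj)]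

/-- A constant multiple of the degree is an upper barrier. -/
theorem ShapeBounds.upper {B X τ : ℝ} (hb : ShapeBounds sh B X) (j : ℕ) (h1 : 1 ≤ τ)
    (h2 : Real.exp (2 * X + 4 * B) ≤ τ ^ 2) (h3 : 4 / 3 * Real.exp (2 * X + 4 * B) ≤ τ) :
    (Coeff.ofShape H sh j hb.drift).Upper fun _ => τ * j where
  diff := differentiable_const _
  start _ _ := le_mul_of_one_le_left (Nat.cast_nonneg j) h1
  super t _ x := by
    have hj : (0 : ℝ) ≤ j := Nat.cast_nonneg j
    refine (Sched.form_lam_bounds sh H j t B x (hb.β_le t) fun a => hb.γ_le a t).2.trans ?_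
    refine mul_le_mul_of_nonneg_right ?_ (sq_nonneg _)
    have he : Real.exp (2 * sh.χ t) * Real.exp (4 * B) ≤ Real.exp (2 * X + 4 * B) := by
      rw [← Real.exp_add]; exact Real.exp_le_exp.2 (by linarith [hb.χ_le t])
    refine (mul_le_mul_of_nonneg_right he (by positivity)).trans ?_
    have hd : -(1 / 2) ≤ sh.drift t := (abs_le.1 (hb.drift t)).1
    simp only [deriv_const', zero_add]
    show _ ≤ (τ * j) ^ 2 + (2 + sh.drift t) * (τ * j)
    nlinarith [mul_le_mul_of_nonneg_right h2 (sq_nonneg (j : ℝ)),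
      mul_le_mul_of_nonneg_right h3 hj,
      mul_le_mul_of_nonneg_right hd (mul_nonneg (zero_le_one.trans h1) hj)]

end

end Vale.Agent.P225.ODE
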