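import Vale.Agent.P225.ODE.Regular

/-!
# P225: the matrix Omega of one degree

`Phi t (Omega t) = ∫_{r > t} e^{-(mass r - mass t)} prop t r (prop t r)*`; along a solution
`y = u' - P u` satisfies `y' = -(P + 2 + s) y + f` and `xhat' = Omega f`.
-/

namespace Vale.Agent.P225.ODE

open MeasureTheory Set Filter ContinuousLinearMap
open scoped RealInnerProductSpace Topology

noncomputable section

variable {E : Type*} [NormedAddCommGroup E] [InnerProductSpace ℝ E]

/-- A symmetric operator is bounded by a bound of its quadratic form. -/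
theorem opNorm_le_of_form (A : E →L[ℝ] E) (hs : ∀ x y, ⟪A x, y⟫ = ⟪x, A y⟫) {C : ℝ} (hC : 0 ≤ C)
    (h : ∀ x, |⟪x, A x⟫| ≤ C * ‖x‖ ^ 2) : ‖A‖ ≤ C := by
  refine opNorm_le_bound _ hC fun x => ?_
  rcases eq_or_ne (A x) 0 with h0 | h0
  · rw [h0, norm_zero]; positivity
  set y := (‖x‖ / ‖A x‖) • A x with hy
  have hny : ‖y‖ = ‖x‖ := by
    rw [hy, norm_smul, Real.norm_eq_abs, abs_of_nonneg (by positivity),
      div_mul_cancel₀ _ (norm_ne_zero_iff.2 h0)]
  have hin : ⟪A x, y⟫ = ‖x‖ * ‖A x‖ := by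
    rw [hy, inner_smul_right, real_inner_self_eq_norm_sq]
    field_simp
  have h1 := (abs_le.1 (h (x + y))).2
  have h2 := (abs_le.1 (h (x - y))).1
  rw [norm_add_sq_real, hny] at h1
  rw [norm_sub_sq_real, hny] at h2
  simp only [map_add, map_sub, inner_add_left, inner_add_right, inner_sub_left,
    inner_sub_right] at h1 h2
  have hxy : ⟪y, A x⟫ = ⟪A x, y⟫ := real_inner_comm _ _
  have hyx : ⟪x, A y⟫ = ⟪A x, y⟫ := (hs x y).symm
  have hsq : ‖x‖ * ‖A x‖ ≤ C * ‖x‖ ^ 2 := by nlinarith
  rcases eq_or_ne x 0 with hx | hx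
  · simp [hx] at h0
  · exact le_of_mul_le_mul_left (by nlinarith) (norm_pos_iff.2 hx)

theorem integral_exp_neg_interval {a : ℝ} (ha : a ≠ 0) (t T : ℝ) :
    ∫ r in t..t + T, Real.exp (-(a * (r - t))) = (1 - Real.exp (-(a * T))) / a := by
  have hd : ∀ r ∈ uIcc t (t + T), HasDerivAt (fun r => -(Real.exp (-(a * (r - t))) / a))
      (Real.exp (-(a * (r - t)))) r := fun r _ => by
    refine ((((hasDerivAt_id r).sub_const t).const_mul a).neg.exp.div_const a).neg.congr_deriv ?_
    simp; field_simp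
  rw [intervalIntegral.integral_eq_sub_of_hasDerivAt hd
    (Continuous.intervalIntegrable (by fun_prop) _ _)]
  simp; ring

variable (c : Coeff E)

namespace Coeff

theorem hasDerivAt_mass (t : ℝ) : HasDerivAt c.mass (2 + c.s t) t :=
  ((continuous_const.add c.cont_s).integral_hasStrictDerivAt 0 t).hasDerivAt

theorem cont_mass : Continuous c.mass :=
  continuous_iff_continuousAt.2 fun t => (c.hasDerivAt_mass t).continuousAt

theorem mass_sub (t r : ℝ) : c.mass r - c.mass t = ∫ q in t..r, (2 + c.s q) :=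
  (intervalIntegral.integral_interval_sub_left
    (c.cont_rate.intervalIntegrable _ _)
    (c.cont_rate.intervalIntegrable _ _))

theorem le_mass_sub {t r δ : ℝ} (htr : t ≤ r) (hs : ∀ q ∈ Icc t r, -δ ≤ c.s q) :
    (2 - δ) * (r - t) ≤ c.mass r - c.mass t := by
  rw [c.mass_sub]
  have := intervalIntegral.integral_mono_on (μ := volume) htr
    (intervalIntegrable_const (c := 2 - δ))
    (c.cont_rate.intervalIntegrable _ _) fun q hq => by linarith [hs q hq]
  simp only [intervalIntegral.integral_const, smul_eq_mul] at this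
  linarith

theorem mass_sub_le {t r δ : ℝ} (htr : t ≤ r) (hs : ∀ q ∈ Icc t r, c.s q ≤ δ) :
    c.mass r - c.mass t ≤ (2 + δ) * (r - t) := by
  rw [c.mass_sub]
  have := intervalIntegral.integral_mono_on (μ := volume) htr
    (c.cont_rate.intervalIntegrable _ _)
    (intervalIntegrable_const (c := 2 + δ)) fun q hq => by linarith [hs q hq]
  simp only [intervalIntegral.integral_const, smul_eq_mul] at this
  linarith

theorem three_halves_le_mass_sub {t r : ℝ} (htr : t ≤ r) :
    3 / 2 * (r - t) ≤ c.mass r - c.mass t := by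
  have := c.le_mass_sub (δ := 1 / 2) htr fun q _ => (abs_le.1 (c.abs_s q)).1
  linarith

variable [FiniteDimensional ℝ E]

theorem adjoint_P (t : ℝ) : adjoint (c.P t) = c.P t :=
  ((eq_adjoint_iff _ _).2 (c.P_symm t)).symm

theorem prop_mul (t r q : ℝ) : c.prop t r * c.prop r q = c.prop t q := by
  rw [prop, prop, prop, mul_assoc, ← mul_assoc (c.Psi r), c.Psi_mul_Phi, one_mul]

theorem prop_self (t : ℝ) : c.prop t t = 1 := c.Phi_mul_Psi t

theorem Psi_eq_mul_prop (t r : ℝ) : c.Psi r = c.Psi t * c.prop t r := by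
  rw [prop, ← mul_assoc, c.Psi_mul_Phi, one_mul]

theorem norm_prop_le {l : ℝ → ℝ} (hl : c.Lower l) {t r : ℝ} (htr : t ≤ r) :
    ‖c.prop t r‖ ≤ Real.exp (-∫ q in t..r, l q) :=
  opNorm_le_bound _ (Real.exp_pos _).le fun x => c.norm_prop_le_exp_neg hl htr x

theorem norm_prop_le_one {t r : ℝ} (htr : t ≤ r) : ‖c.prop t r‖ ≤ 1 := by
  simpa using c.norm_prop_le c.lower_zero htr

theorem norm_adjoint_prop_le {l : ℝ → ℝ} (hl : c.Lower l) {t r : ℝ} (htr : t ≤ r) (x : E) :
    ‖adjoint (c.prop t r) x‖ ≤ Real.exp (-∫ q in t..r, l q) * ‖x‖ := by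
  refine (le_opNorm _ x).trans (mul_le_mul_of_nonneg_right ?_ (norm_nonneg x))
  rw [LinearIsometryEquiv.norm_map]
  exact c.norm_prop_le hl htr

theorem le_norm_adjoint_prop {h : ℝ → ℝ} (hh : c.Upper h) {t r : ℝ} (htr : t ≤ r) (x : E) :
    Real.exp (-∫ q in t..r, h q) * ‖x‖ ≤ ‖adjoint (c.prop t r) x‖ := by
  have h1 : ‖adjoint (c.prop r t)‖ ≤ Real.exp (∫ q in t..r, h q) := by
    rw [LinearIsometryEquiv.norm_map]
    exact opNorm_le_bound _ (Real.exp_pos _).le fun y => c.norm_prop_le_exp hh htr y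
  have h2 : adjoint (c.prop r t) (adjoint (c.prop t r) x) = x := by
    rw [← comp_apply, ← adjoint_comp, ← mul_def, c.prop_mul, c.prop_self]
    simp [← star_eq_adjoint]
  have h3 := (le_opNorm (adjoint (c.prop r t)) (adjoint (c.prop t r) x)).trans
    (mul_le_mul_of_nonneg_right h1 (norm_nonneg _))
  rw [h2] at h3
  rw [Real.exp_neg, inv_mul_le_iff₀ (Real.exp_pos _)]
  exact h3

/-- The integrand of `gram`. -/
def gramTerm (r : ℝ) : E →L[ℝ] E := Real.exp (-c.mass r) • (c.Psi r * adjoint (c.Psi r))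

theorem cont_gramTerm : Continuous c.gramTerm := by
  unfold gramTerm
  simp only [← star_eq_adjoint]
  exact c.cont_mass.neg.rexp.smul (c.cont_Psi.mul c.cont_Psi.star)

theorem norm_gramTerm_le {t r : ℝ} (htr : t ≤ r) :
    ‖c.gramTerm r‖ ≤ Real.exp (-c.mass t) * Real.exp (-(3 / 2 * (r - t))) * ‖c.Psi t‖ ^ 2 := by
  have h1 : ‖c.Psi r‖ ≤ ‖c.Psi t‖ := by
    rw [c.Psi_eq_mul_prop t r]
    exact (norm_mul_le _ _).trans (mul_le_of_le_one_right (norm_nonneg _) (c.norm_prop_le_one htr))
  rw [gramTerm, norm_smul, Real.norm_eq_abs, abs_of_pos (Real.exp_pos _), ← Real.exp_add]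
  refine mul_le_mul (Real.exp_le_exp.2 (by linarith [c.three_halves_le_mass_sub htr])) ?_
    (norm_nonneg _) (Real.exp_pos _).le
  refine (norm_mul_le _ _).trans ?_
  rw [LinearIsometryEquiv.norm_map, sq]
  exact mul_le_mul h1 h1 (norm_nonneg _) (norm_nonneg _)

theorem integrableOn_gramTerm (t : ℝ) : IntegrableOn c.gramTerm (Ioi t) := by
  refine Integrable.mono' (((exp_neg_integrableOn_Ioi t (b := 3 / 2) (by norm_num)).const_mul
    (Real.exp (-c.mass t) * Real.exp (3 / 2 * t) * ‖c.Psi t‖ ^ 2)))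
    c.cont_gramTerm.aestronglyMeasurable ((ae_restrict_iff' measurableSet_Ioi).2
      (Eventually.of_forall fun r hr => (c.norm_gramTerm_le (le_of_lt hr)).trans (le_of_eq ?_)))
  rw [show -(3 / 2 * (r - t)) = 3 / 2 * t + -(3 / 2) * r by ring, Real.exp_add]
  ring

theorem hasDerivAt_gram (t : ℝ) : HasDerivAt c.gram (-c.gramTerm t) t := by
  have h : c.gram = fun r => c.gram 0 - ∫ q in (0 : ℝ)..r, c.gramTerm q := by
    funext r
    have := intervalIntegral.integral_Ioi_sub_Ioi' (c.integrableOn_gramTerm 0)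
      (c.integrableOn_gramTerm r)
    change (∫ q in Ioi r, c.gramTerm q) = (∫ q in Ioi (0 : ℝ), c.gramTerm q) - _
    rw [← this]; abel
  rw [h]
  exact (c.cont_gramTerm.integral_hasStrictDerivAt 0 t).hasDerivAt.const_sub _

theorem hasDerivAt_Omega (t : ℝ) :
    HasDerivAt c.Omega (-c.Psi t + c.Omega t * (c.P t + (2 + c.s t) • 1)) t := by
  have h1 : HasDerivAt (fun t => adjoint (c.Phi t)) (adjoint (c.Phi t) * c.P t) t := by
    have := (c.hasDerivAt_Phi t).star
    simp only [star_mul, star_eq_adjoint, c.adjoint_P] at this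
    exact this
  refine ((c.hasDerivAt_mass t).exp.smul ((c.hasDerivAt_gram t).mul h1)).congr_deriv ?_
  have h2 : adjoint (c.Psi t) * adjoint (c.Phi t) = 1 := by
    simp only [← star_eq_adjoint, ← star_mul, c.Phi_mul_Psi, star_one]
  simp only [Omega, gramTerm, Pi.mul_apply, smul_smul, ← Real.exp_add, neg_mul, smul_mul_assoc, mul_assoc, h2,
    mul_one, mul_add, mul_smul_comm, smul_add, smul_neg]
  rw [add_neg_cancel, Real.exp_zero, one_smul]
  module

theorem cont_Omega : Continuous c.Omega :=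
  continuous_iff_continuousAt.2 fun t => (c.hasDerivAt_Omega t).continuousAt

/-- The integrand of the form of `Phi Omega`. -/
def formTerm (t : ℝ) (x y : E) (r : ℝ) : ℝ :=
  Real.exp (-(c.mass r - c.mass t)) * ⟪adjoint (c.prop t r) x, adjoint (c.prop t r) y⟫

theorem cont_formTerm (t : ℝ) (x y : E) : Continuous (c.formTerm t x y) := by
  have h : Continuous fun r => adjoint (c.prop t r) := by
    simp only [← star_eq_adjoint]
    exact (continuous_const.mul c.cont_Psi).star
  exact (c.cont_mass.sub continuous_const).neg.rexp.mul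
    ((h.clm_apply continuous_const).inner (h.clm_apply continuous_const))

theorem inner_Phi_Omega (t : ℝ) (x y : E) :
    ⟪x, c.Phi t (c.Omega t y)⟫ = ∫ r in Ioi t, c.formTerm t x y r := by
  have hc := ((innerSL ℝ (adjoint (c.Phi t) x)).comp
    (ContinuousLinearMap.apply ℝ E (adjoint (c.Phi t) y))).integral_comp_comm
      (c.integrableOn_gramTerm t)
  rw [← adjoint_inner_left]
  simp only [Omega, smul_apply, mul_apply_eq_comp, inner_smul_right]
  rw [show c.gram t = ∫ r in Ioi t, c.gramTerm r from rfl]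
  simp only [comp_apply, innerSL_apply_apply, ContinuousLinearMap.apply_apply] at hc
  rw [← hc, ← integral_const_mul]
  refine integral_congr_ae (Eventually.of_forall fun r => ?_)
  have hp : ∀ z, adjoint (c.prop t r) z = adjoint (c.Psi r) (adjoint (c.Phi t) z) := fun z => by
    simp [prop, mul_def, adjoint_comp]
  simp only [formTerm, gramTerm, hp, smul_apply, mul_apply_eq_comp, inner_smul_right,
    adjoint_inner_left]
  rw [← mul_assoc, ← Real.exp_add, show c.mass t + -c.mass r = -(c.mass r - c.mass t) by ring]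

theorem Phi_Omega_symm (t : ℝ) (x y : E) :
    ⟪c.Phi t (c.Omega t x), y⟫ = ⟪x, c.Phi t (c.Omega t y)⟫ := by
  rw [real_inner_comm, c.inner_Phi_Omega, c.inner_Phi_Omega]
  exact integral_congr_ae (Eventually.of_forall fun r => by simp [formTerm, real_inner_comm])

theorem abs_formTerm_le {l : ℝ → ℝ} (hl : c.Lower l) {t r : ℝ} (htr : t ≤ r) (x y : E) :
    |c.formTerm t x y r| ≤
      Real.exp (-(c.mass r - c.mass t) - 2 * ∫ q in t..r, l q) * (‖x‖ * ‖y‖) := by
  rw [formTerm, abs_mul, abs_of_pos (Real.exp_pos _)]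
  refine (mul_le_mul_of_nonneg_left ((abs_real_inner_le_norm _ _).trans (mul_le_mul
    (c.norm_adjoint_prop_le hl htr x) (c.norm_adjoint_prop_le hl htr y) (norm_nonneg _)
    (by positivity))) (Real.exp_pos _).le).trans (le_of_eq ?_)
  rw [show -(c.mass r - c.mass t) - 2 * (∫ q in t..r, l q) = -(c.mass r - c.mass t) +
    ((-∫ q in t..r, l q) + (-∫ q in t..r, l q)) by ring, Real.exp_add, Real.exp_add]
  ring

theorem integrableOn_formTerm (t : ℝ) (x y : E) : IntegrableOn (c.formTerm t x y) (Ioi t) := by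
  refine Integrable.mono' (((exp_neg_integrableOn_Ioi t (b := 3 / 2) (by norm_num)).const_mul
    (Real.exp (3 / 2 * t) * (‖x‖ * ‖y‖))))
    (c.cont_formTerm t x y).aestronglyMeasurable ((ae_restrict_iff' measurableSet_Ioi).2
      (Eventually.of_forall fun r hr => (c.abs_formTerm_le c.lower_zero (le_of_lt hr) x y).trans ?_))
  rw [mul_right_comm (Real.exp (3 / 2 * t)), ← Real.exp_add]
  refine mul_le_mul_of_nonneg_right (Real.exp_le_exp.2 ?_) (by positivity)
  simp only [intervalIntegral.integral_zero, mul_zero, sub_zero]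
  linarith [c.three_halves_le_mass_sub (le_of_lt hr)]

/-- Upper bound for `Phi Omega` from bounds on a window `[t, t + T]`. -/
theorem norm_Phi_Omega_le {l : ℝ → ℝ} (hl : c.Lower l) {t T L δ : ℝ} (hT : 0 ≤ T)
    (ha : 0 < 2 * L + 2 - δ) (hL : ∀ q ∈ Icc t (t + T), L ≤ l q)
    (hδ : ∀ q ∈ Icc t (t + T), -δ ≤ c.s q) (hpos : ∀ q, t + T ≤ q → 0 ≤ l q) (x : E) :
    ‖c.Phi t (c.Omega t x)‖ ≤ ((1 - Real.exp (-((2 * L + 2 - δ) * T))) / (2 * L + 2 - δ) +
      2 / 3 * Real.exp (-((2 * L + 2 - δ) * T))) * ‖x‖ := by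
  set a := 2 * L + 2 - δ with ha'
  set C := (1 - Real.exp (-(a * T))) / a + 2 / 3 * Real.exp (-(a * T)) with hC'
  have hC : 0 ≤ C := by
    have : Real.exp (-(a * T)) ≤ 1 := Real.exp_le_one_iff.2 (by nlinarith)
    have := div_nonneg (by linarith : 0 ≤ 1 - Real.exp (-(a * T))) ha.le
    have := Real.exp_pos (-(a * T))
    positivity
  have hlc : Continuous l := hl.diff.continuous
  have hwin : ∀ r, t ≤ r → r ≤ t + T → (a * (r - t)) ≤
      c.mass r - c.mass t + 2 * ∫ q in t..r, l q := by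
    intro r h1 h2
    have := c.le_mass_sub (δ := δ) h1 fun q hq => hδ q ⟨hq.1, hq.2.trans h2⟩
    have h4 := intervalIntegral.integral_mono_on (μ := volume) h1 (intervalIntegrable_const (c := L))
      (hlc.intervalIntegrable _ _) fun q hq => hL q ⟨hq.1, hq.2.trans h2⟩
    simp only [intervalIntegral.integral_const, smul_eq_mul] at h4
    rw [ha']; nlinarith
  have key : ∀ y, |⟪y, c.Phi t (c.Omega t x)⟫| ≤ C * ‖x‖ * ‖y‖ := by
    intro y
    set g : ℝ → ℝ := fun r => |c.formTerm t y x r| with hg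
    have hgi : IntegrableOn g (Ioi t) := (c.integrableOn_formTerm t y x).abs
    have htT : t ≤ t + T := by linarith
    rw [c.inner_Phi_Omega]
    refine (abs_integral_le_integral_abs).trans ?_
    rw [← intervalIntegral.integral_interval_add_Ioi hgi (hgi.mono_set (Ioi_subset_Ioi htT))]
    have h1 : ∫ r in t..t + T, g r ≤ (1 - Real.exp (-(a * T))) / a * (‖y‖ * ‖x‖) := by
      rw [← integral_exp_neg_interval ha.ne' t T, ← intervalIntegral.integral_mul_const]
      refine intervalIntegral.integral_mono_on htT ((c.cont_formTerm t y x).abs.intervalIntegrable _ _)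
        (Continuous.intervalIntegrable (by fun_prop) _ _) fun r hr => ?_
      refine (c.abs_formTerm_le hl hr.1 y x).trans
        (mul_le_mul_of_nonneg_right (Real.exp_le_exp.2 ?_) (by positivity))
      linarith [hwin r hr.1 hr.2]
    have h2 : ∫ r in Ioi (t + T), g r ≤ 2 / 3 * Real.exp (-(a * T)) * (‖y‖ * ‖x‖) := by
      have hi := (exp_neg_integrableOn_Ioi (t + T) (b := 3 / 2) (by norm_num)).const_mul
        (Real.exp (-(a * T) + 3 / 2 * (t + T)) * (‖y‖ * ‖x‖))
      refine (setIntegral_mono_on (hgi.mono_set (Ioi_subset_Ioi htT)) hi measurableSet_Ioi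
        fun r hr => ?_).trans (le_of_eq ?_)
      · have hr' : t + T ≤ r := le_of_lt hr
        refine (c.abs_formTerm_le hl (htT.trans hr') y x).trans (le_trans
          (mul_le_mul_of_nonneg_right (Real.exp_le_exp.2 ?_) (by positivity))
          (le_of_eq (by rw [mul_right_comm, ← Real.exp_add])))
        have h3 := hwin (t + T) htT le_rfl
        have h4 := c.three_halves_le_mass_sub hr'
        have h5 : (0 : ℝ) ≤ ∫ q in t + T..r, l q :=
          intervalIntegral.integral_nonneg hr' fun q hq => hpos q hq.1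
        rw [← intervalIntegral.integral_add_adjacent_intervals (hlc.intervalIntegrable t (t + T))
          (hlc.intervalIntegrable (t + T) r)]
        linarith
      · rw [integral_const_mul, integral_exp_mul_Ioi (by norm_num), Real.exp_add]
        have e : Real.exp (3 / 2 * (t + T)) * Real.exp (-(3 / 2) * (t + T)) = 1 := by
          rw [← Real.exp_add]; simp
        linear_combination 2 / 3 * Real.exp (-(a * T)) * (‖y‖ * ‖x‖) * e
    have e : C * ‖x‖ * ‖y‖ = (1 - Real.exp (-(a * T))) / a * (‖y‖ * ‖x‖) +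
        2 / 3 * Real.exp (-(a * T)) * (‖y‖ * ‖x‖) := by rw [hC']; ring
    linarith
  have := key (c.Phi t (c.Omega t x))
  rw [real_inner_self_eq_norm_sq, abs_of_nonneg (sq_nonneg _)] at this
  rcases eq_or_ne ‖c.Phi t (c.Omega t x)‖ 0 with h | h
  · rw [h]; positivity
  · exact le_of_mul_le_mul_right (by rwa [← sq]) (lt_of_le_of_ne (norm_nonneg _) h.symm)

/-- `‖Phi Omega‖ ≤ 2/3` at all times. -/
theorem norm_Phi_Omega_le_two_thirds (t : ℝ) (x : E) :
    ‖c.Phi t (c.Omega t x)‖ ≤ 2 / 3 * ‖x‖ := by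
  refine (c.norm_Phi_Omega_le c.lower_zero (T := 0) (L := 0) (δ := 1 / 2) le_rfl (by norm_num)
    (fun _ _ => le_rfl) (fun q _ => (abs_le.1 (c.abs_s q)).1) (fun _ _ => le_rfl) x).trans
      (le_of_eq ?_)
  norm_num

/-- Lower bound for `Phi Omega` from bounds on a window `[t, t + T]`. -/
theorem le_inner_Phi_Omega {h : ℝ → ℝ} (hh : c.Upper h) {t T H δ : ℝ} (hT : 0 ≤ T)
    (hb : 0 < 2 * H + 2 + δ) (hH : ∀ q ∈ Icc t (t + T), h q ≤ H)
    (hδ : ∀ q ∈ Icc t (t + T), c.s q ≤ δ) (x : E) :
    (1 - Real.exp (-((2 * H + 2 + δ) * T))) / (2 * H + 2 + δ) * ‖x‖ ^ 2 ≤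
      ⟪x, c.Phi t (c.Omega t x)⟫ := by
  have htT : t ≤ t + T := by linarith
  have hnn : ∀ r, 0 ≤ c.formTerm t x x r := fun r =>
    mul_nonneg (Real.exp_pos _).le real_inner_self_nonneg
  have hgi := c.integrableOn_formTerm t x x
  rw [c.inner_Phi_Omega, ← intervalIntegral.integral_interval_add_Ioi hgi
    (hgi.mono_set (Ioi_subset_Ioi htT))]
  refine le_add_of_le_of_nonneg ?_ (setIntegral_nonneg measurableSet_Ioi fun r _ => hnn r)
  rw [← integral_exp_neg_interval hb.ne' t T, ← intervalIntegral.integral_mul_const]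
  refine intervalIntegral.integral_mono_on htT (Continuous.intervalIntegrable (by fun_prop) _ _)
    ((c.cont_formTerm t x x).intervalIntegrable _ _) fun r hr => ?_
  have h1 := c.le_norm_adjoint_prop hh hr.1 x
  have h3 := c.mass_sub_le (δ := δ) hr.1 fun q hq => hδ q ⟨hq.1, hq.2.trans hr.2⟩
  have h4 := intervalIntegral.integral_mono_on (μ := volume) hr.1
    (hh.diff.continuous.intervalIntegrable _ _) (intervalIntegrable_const (c := H))
    fun q hq => hH q ⟨hq.1, hq.2.trans hr.2⟩
  simp only [intervalIntegral.integral_const, smul_eq_mul] at h4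
  rw [formTerm, real_inner_self_eq_norm_sq]
  refine le_trans ?_ (mul_le_mul_of_nonneg_left (pow_le_pow_left₀ (by positivity) h1 2)
    (Real.exp_pos _).le)
  rw [mul_pow, ← mul_assoc, sq (Real.exp _), ← Real.exp_add, ← Real.exp_add]
  exact mul_le_mul_of_nonneg_right (Real.exp_le_exp.2 (by linarith)) (sq_nonneg _)

theorem norm_Omega_apply_le (t : ℝ) (x : E) : ‖c.Omega t x‖ ≤ 2 / 3 * ‖c.Psi t‖ * ‖x‖ := by
  have h := (c.Psi t).le_opNorm (c.Phi t (c.Omega t x))
  rw [c.Psi_Phi_apply] at h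
  nlinarith [c.norm_Phi_Omega_le_two_thirds t x, norm_nonneg (c.Psi t)]

/-! ### Solutions -/

theorem hasDerivAt_ypart {f u du : ℝ → E} (hu : c.IsSol f u du) (t : ℝ) :
    HasDerivAt (c.ypart u du)
      (-(c.P t (c.ypart u du t) + (2 + c.s t) • c.ypart u du t) + f t) t := by
  refine ((hu.2 t).sub ((c.hasDerivAt_P t).clm_apply (hu.1 t))).congr_deriv ?_
  simp only [ypart, sub_apply, smul_apply, mul_apply_eq_comp, map_sub]
  module

theorem hasDerivAt_xhat {f u du : ℝ → E} (hu : c.IsSol f u du) (t : ℝ) :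
    HasDerivAt (c.xhat u du) (c.Omega t (f t)) t := by
  refine (((c.hasDerivAt_Psi t).clm_apply (hu.1 t)).add
    ((c.hasDerivAt_Omega t).clm_apply (c.hasDerivAt_ypart hu t))).congr_deriv ?_
  simp only [neg_apply, add_apply, mul_apply_eq_comp, smul_apply, one_apply_eq_self,
    map_add, map_neg, map_smul, ypart, map_sub]
  module

end Coeff

end

end Vale.Agent.P225.ODE
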