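import Vale.Agent.P225.ODE.Defs

/-!
# P225: the regular fundamental solution of one degree and its Riccati bounds
-/

namespace Vale.Agent.P225.ODE

open MeasureTheory Set Filter
open scoped RealInnerProductSpace Topology

noncomputable section

/-- A linear differential inequality, integrated. -/
theorem exp_mul_le_of_ineq {f f' a : ℝ → ℝ} {r q : ℝ} (ha : Continuous a) (hrq : r ≤ q)
    (hf : ∀ t ∈ Icc r q, HasDerivAt f (f' t) t) (h : ∀ t ∈ Icc r q, 0 ≤ f' t + a t * f t) :
    f r * Real.exp (-∫ x in r..q, a x) ≤ f q := by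
  have hd : ∀ t ∈ Icc r q, HasDerivAt (fun t => Real.exp (∫ x in r..t, a x) * f t)
      (Real.exp (∫ x in r..t, a x) * a t * f t + Real.exp (∫ x in r..t, a x) * f' t) t := fun t ht =>
    ((ha.integral_hasStrictDerivAt r t).hasDerivAt.exp).mul (hf t ht)
  have hm : MonotoneOn (fun t => Real.exp (∫ x in r..t, a x) * f t) (Icc r q) := by
    refine monotoneOn_of_hasDerivWithinAt_nonneg (convex_Icc r q)
      (fun t ht => (hd t ht).continuousAt.continuousWithinAt)
      (fun t ht => (hd t (interior_subset ht)).hasDerivWithinAt) fun t ht => ?_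
    have := mul_nonneg (Real.exp_pos (∫ x in r..t, a x)).le (h t (interior_subset ht))
    nlinarith
  have h1 := hm (left_mem_Icc.2 hrq) (right_mem_Icc.2 hrq) hrq
  simp only [intervalIntegral.integral_same, Real.exp_zero, one_mul] at h1
  rw [Real.exp_neg, ← div_eq_mul_inv, div_le_iff₀ (Real.exp_pos _)]
  linarith [mul_comm (f q) (Real.exp (∫ x in r..q, a x))]

theorem nonneg_of_ineq {f f' a : ℝ → ℝ} {r q : ℝ} (ha : Continuous a) (hrq : r ≤ q)
    (hf : ∀ t ∈ Icc r q, HasDerivAt f (f' t) t) (h : ∀ t ∈ Icc r q, 0 ≤ f' t + a t * f t)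
    (h0 : 0 ≤ f r) : 0 ≤ f q :=
  (mul_nonneg h0 (Real.exp_pos _).le).trans (exp_mul_le_of_ineq ha hrq hf h)

variable {E : Type*} [NormedAddCommGroup E] [InnerProductSpace ℝ E] [FiniteDimensional ℝ E]
  (c : Coeff E)

namespace Coeff

omit [FiniteDimensional ℝ E] in
theorem cont_field : Continuous c.field := by
  have h : c.field = fun t =>
      (ContinuousLinearMap.inl ℝ (E →L[ℝ] E) (E →L[ℝ] E)).comp (ContinuousLinearMap.snd ℝ _ _) +
        (ContinuousLinearMap.inr ℝ (E →L[ℝ] E) (E →L[ℝ] E)).comp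
          ((-(2 + c.s t)) • ContinuousLinearMap.snd ℝ _ _ +
            (ContinuousLinearMap.compL ℝ E E E (c.lam t)).comp
              (ContinuousLinearMap.fst ℝ _ _)) := by
    funext t
    refine ContinuousLinearMap.ext fun z => ?_
    simp [field]
  rw [h]
  exact continuous_const.add (continuous_const.clm_comp
    (((continuous_const.add c.cont_s).neg.smul continuous_const).add
      (((ContinuousLinearMap.compL ℝ E E E).continuous.comp c.cont_lam).clm_comp continuous_const)))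

omit [FiniteDimensional ℝ E] in
theorem field_apply (t : ℝ) (z : (E →L[ℝ] E) × (E →L[ℝ] E)) :
    c.field t z = (z.2, (-(2 + c.s t)) • z.2 + c.lam t * z.1) := rfl

theorem hasDerivAt_pair (t : ℝ) : HasDerivAt c.pair (c.field t (c.pair t)) t :=
  hasDerivAt_flow c.cont_field _ t

theorem hasDerivAt_Phi₀ (t : ℝ) : HasDerivAt c.Phi (c.dPhi t) t :=
  (ContinuousLinearMap.fst ℝ (E →L[ℝ] E) (E →L[ℝ] E)).hasFDerivAt.comp_hasDerivAt t
    (c.hasDerivAt_pair t)

theorem hasDerivAt_dPhi (t : ℝ) :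
    HasDerivAt c.dPhi ((-(2 + c.s t)) • c.dPhi t + c.lam t * c.Phi t) t :=
  (ContinuousLinearMap.snd ℝ (E →L[ℝ] E) (E →L[ℝ] E)).hasFDerivAt.comp_hasDerivAt t
    (c.hasDerivAt_pair t)

theorem pair_start {t : ℝ} (ht : t ≤ 0) :
    c.pair t = (Real.exp (c.e * t) • 1, (c.e * Real.exp (c.e * t)) • 1) := by
  set g : ℝ → (E →L[ℝ] E) × (E →L[ℝ] E) :=
    fun t => (Real.exp (c.e * t) • 1, (c.e * Real.exp (c.e * t)) • 1) with hg
  have hgd : ∀ t ≤ 0, HasDerivAt g (c.field t (g t)) t := by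
    intro t ht
    have h1 : HasDerivAt (fun t => Real.exp (c.e * t)) (c.e * Real.exp (c.e * t)) t := by
      simpa [mul_comm] using ((hasDerivAt_id t).const_mul c.e).exp
    refine ((h1.smul_const (1 : E →L[ℝ] E)).prodMk ((h1.const_mul c.e).smul_const (1 : E →L[ℝ] E))).congr_deriv ?_
    simp only [hg, field_apply, c.start_lam t ht, c.start_s t ht]
    refine Prod.ext rfl ?_
    ext x
    simp [smul_smul]
    module
  set h : ℝ → (E →L[ℝ] E) × (E →L[ℝ] E) := fun t => if t ≤ 0 then g t else c.pair t with hh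
  have h0 : g 0 = c.pair 0 := by
    simp only [pair, flow_zero, hg]
    simp [ContinuousLinearMap.one_def]
  have hd : ∀ t, HasDerivAt h (c.field t (h t)) t := by
    intro t
    rcases lt_trichotomy t 0 with ht | ht | ht
    · rw [hh]; simp only [if_pos ht.le]
      refine (hgd t ht.le).congr_of_eventuallyEq ?_
      filter_upwards [Iio_mem_nhds ht] with r hr
      simp [le_of_lt (mem_Iio.1 hr)]
    · subst ht
      have e : h 0 = g 0 := by simp [hh]
      rw [e]
      have hl : HasDerivWithinAt h (c.field 0 (g 0)) (Iic 0) 0 :=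
        (hgd 0 le_rfl).hasDerivWithinAt.congr (fun r hr => by simp [hh, mem_Iic.1 hr]) e
      have hr : HasDerivWithinAt h (c.field 0 (g 0)) (Ici 0) 0 := by
        refine ((h0 ▸ c.hasDerivAt_pair 0).hasDerivWithinAt (s := Ici 0)).congr (fun r hr => ?_) ?_
        · rcases (mem_Ici.1 hr).eq_or_lt with hz | hz
          · subst hz; simp [hh, h0]
          · simp [hh, not_le.2 hz]
        · simp [hh, h0]
      simpa [Iic_union_Ici] using hl.union hr
    · rw [hh]; simp only [if_neg (not_le.2 ht)]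
      refine (c.hasDerivAt_pair t).congr_of_eventuallyEq ?_
      filter_upwards [Ioi_mem_nhds ht] with r hr
      simp [not_le.2 (mem_Ioi.1 hr)]
  have := linear_unique c.cont_field c.hasDerivAt_pair hd (a := 0) (by simp [hh, h0])
  rw [this]
  simp [hh, ht, hg]

theorem Phi_start {t : ℝ} (ht : t ≤ 0) : c.Phi t = Real.exp (c.e * t) • 1 := by
  rw [Phi, c.pair_start ht]

theorem dPhi_start {t : ℝ} (ht : t ≤ 0) : c.dPhi t = (c.e * Real.exp (c.e * t)) • 1 := by
  rw [dPhi, c.pair_start ht]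

theorem Phi_zero : c.Phi 0 = 1 := by simp [c.Phi_start le_rfl]

theorem hasDerivAt_Phi_apply (x : E) (t : ℝ) :
    HasDerivAt (fun t => c.Phi t x) (c.dPhi t x) t := by
  simpa using (c.hasDerivAt_Phi₀ t).clm_apply (hasDerivAt_const t x)

theorem hasDerivAt_dPhi_apply (x : E) (t : ℝ) :
    HasDerivAt (fun t => c.dPhi t x) (-(2 + c.s t) • c.dPhi t x + c.lam t (c.Phi t x)) t := by
  simpa using (c.hasDerivAt_dPhi t).clm_apply (hasDerivAt_const t x)

omit [FiniteDimensional ℝ E] in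
theorem cont_rate : Continuous fun t => 2 + c.s t := continuous_const.add c.cont_s

/-- The lower Riccati bound, along solutions. -/
theorem lower_form {l : ℝ → ℝ} (hl : c.Lower l) (x : E) (t : ℝ) :
    l t * ‖c.Phi t x‖ ^ 2 ≤ ⟪c.Phi t x, c.dPhi t x⟫ := by
  have hneg : ∀ t ≤ 0, 0 ≤ ⟪c.Phi t x, c.dPhi t x⟫ - l t * ‖c.Phi t x‖ ^ 2 := by
    intro t ht
    rw [c.Phi_start ht, c.dPhi_start ht, ← real_inner_self_eq_norm_sq]
    simp only [smul_apply, one_apply_eq_self, inner_smul_left,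
      inner_smul_right, RCLike.conj_to_real]
    nlinarith [mul_nonneg (sub_nonneg.2 (hl.start t ht))
      (mul_nonneg (sq_nonneg (Real.exp (c.e * t))) (real_inner_self_nonneg (x := x)))]
  rcases le_total t 0 with ht | ht
  · linarith [hneg t ht]
  suffices 0 ≤ ⟪c.Phi t x, c.dPhi t x⟫ - l t * ‖c.Phi t x‖ ^ 2 by linarith
  refine nonneg_of_ineq (f := fun r => ⟪c.Phi r x, c.dPhi r x⟫ - l r * ‖c.Phi r x‖ ^ 2)
    c.cont_rate ht (fun r _ => ((c.hasDerivAt_Phi_apply x r).inner ℝ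
      (c.hasDerivAt_dPhi_apply x r)).sub ((hl.diff r).hasDerivAt.mul (c.hasDerivAt_Phi_apply x r).norm_sq))
    (fun r hr => ?_) (hneg 0 le_rfl)
  have h1 := hl.sub r hr.1 (c.Phi r x)
  have h2 := real_inner_self_nonneg (x := c.dPhi r x - l r • c.Phi r x)
  rw [inner_sub_left, inner_sub_right, inner_sub_right] at h2
  simp only [inner_smul_left, inner_smul_right, inner_add_right, RCLike.conj_to_real,
    real_inner_self_eq_norm_sq, real_inner_comm (c.Phi r x) (c.dPhi r x)] at h2 ⊢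
  nlinarith

omit [FiniteDimensional ℝ E] in
theorem lower_zero : c.Lower (fun _ => 0) where
  diff := differentiable_const 0
  start _ _ := c.e_nonneg
  sub t _ x := by simpa using c.nonneg t x

theorem Phi_injective (t : ℝ) : Function.Injective (c.Phi t) := by
  rw [injective_iff_map_eq_zero]
  intro x hx
  rcases le_total t 0 with ht | ht
  · rw [c.Phi_start ht] at hx
    simpa [Real.exp_ne_zero] using hx
  have h := exp_mul_le_of_ineq (f := fun r => ‖c.Phi r x‖ ^ 2) (a := fun _ => 0) continuous_const ht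
    (fun r _ => (c.hasDerivAt_Phi_apply x r).norm_sq)
    (fun r _ => by have := c.lower_form c.lower_zero x r; simp only [zero_mul] at this; linarith)
  simpa [hx, c.Phi_zero] using h

theorem isUnit_Phi (t : ℝ) : IsUnit (c.Phi t) := by
  rw [ContinuousLinearMap.isUnit_iff_bijective]
  exact ⟨c.Phi_injective t,
    (LinearMap.injective_iff_surjective (f := (c.Phi t).toLinearMap)).1 (c.Phi_injective t)⟩

theorem Phi_mul_Psi (t : ℝ) : c.Phi t * c.Psi t = 1 := Ring.mul_inverse_cancel _ (c.isUnit_Phi t)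

theorem Psi_mul_Phi (t : ℝ) : c.Psi t * c.Phi t = 1 := Ring.inverse_mul_cancel _ (c.isUnit_Phi t)

theorem Phi_Psi_apply (t : ℝ) (x : E) : c.Phi t (c.Psi t x) = x := by
  simpa using DFunLike.congr_fun (c.Phi_mul_Psi t) x

theorem Psi_Phi_apply (t : ℝ) (x : E) : c.Psi t (c.Phi t x) = x := by
  simpa using DFunLike.congr_fun (c.Psi_mul_Phi t) x

theorem P_mul_Phi (t : ℝ) : c.P t * c.Phi t = c.dPhi t := by
  rw [P, mul_assoc, c.Psi_mul_Phi, mul_one]

theorem P_Phi_apply (t : ℝ) (x : E) : c.P t (c.Phi t x) = c.dPhi t x := by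
  simpa using DFunLike.congr_fun (c.P_mul_Phi t) x

theorem hasDerivAt_Phi (t : ℝ) : HasDerivAt c.Phi (c.P t * c.Phi t) t := by
  rw [P_mul_Phi]; exact c.hasDerivAt_Phi₀ t

theorem hasDerivAt_Psi (t : ℝ) : HasDerivAt c.Psi (-(c.Psi t * c.P t)) t := by
  have h := (hasFDerivAt_ringInverse (𝕜 := ℝ) (c.isUnit_Phi t).unit).comp_hasDerivAt_of_eq t
    (c.hasDerivAt_Phi₀ t) (c.isUnit_Phi t).unit_spec
  refine h.congr_deriv ?_
  have e : ((c.isUnit_Phi t).unit⁻¹ : (E →L[ℝ] E)ˣ).1 = c.Psi t := by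
    rw [Psi, ← Ring.inverse_unit]; rfl
  simp [e, P, mul_assoc]

theorem cont_Phi : Continuous c.Phi :=
  continuous_iff_continuousAt.2 fun t => (c.hasDerivAt_Phi₀ t).continuousAt

theorem cont_dPhi : Continuous c.dPhi :=
  continuous_iff_continuousAt.2 fun t => (c.hasDerivAt_dPhi t).continuousAt

theorem cont_Psi : Continuous c.Psi :=
  continuous_iff_continuousAt.2 fun t => (c.hasDerivAt_Psi t).continuousAt

theorem cont_P : Continuous c.P := c.cont_dPhi.mul c.cont_Psi

theorem hasDerivAt_P (t : ℝ) :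
    HasDerivAt c.P (c.lam t - (2 + c.s t) • c.P t - c.P t * c.P t) t := by
  refine ((c.hasDerivAt_dPhi t).mul (c.hasDerivAt_Psi t)).congr_deriv ?_
  rw [add_mul, smul_mul_assoc, mul_assoc, c.Phi_mul_Psi, mul_one, mul_neg, ← mul_assoc]
  change (-(2 + c.s t)) • c.P t + c.lam t + -(c.P t * c.P t) = _
  rw [neg_smul]; abel

theorem P_start {t : ℝ} (ht : t ≤ 0) : c.P t = c.e • 1 := by
  have h := c.Phi_mul_Psi t
  rw [c.Phi_start ht, smul_mul_assoc, one_mul] at h
  rw [P, c.dPhi_start ht, smul_mul_assoc, one_mul, mul_smul, h]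

theorem wronskian (x y : E) (t : ℝ) :
    ⟪c.dPhi t x, c.Phi t y⟫ = ⟪c.Phi t x, c.dPhi t y⟫ := by
  have hneg : ∀ t ≤ 0, ⟪c.dPhi t x, c.Phi t y⟫ - ⟪c.Phi t x, c.dPhi t y⟫ = 0 := by
    intro t ht
    simp [c.Phi_start ht, c.dPhi_start ht, inner_smul_left, inner_smul_right]
    ring
  rcases le_total t 0 with ht | ht
  · linarith [hneg t ht]
  have hd : ∀ r, HasDerivAt (fun r => ⟪c.dPhi r x, c.Phi r y⟫ - ⟪c.Phi r x, c.dPhi r y⟫)
      (-(2 + c.s r) * (⟪c.dPhi r x, c.Phi r y⟫ - ⟪c.Phi r x, c.dPhi r y⟫)) r := fun r => by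
    refine (((c.hasDerivAt_dPhi_apply x r).inner ℝ (c.hasDerivAt_Phi_apply y r)).sub
      ((c.hasDerivAt_Phi_apply x r).inner ℝ (c.hasDerivAt_dPhi_apply y r))).congr_deriv ?_
    simp only [inner_add_left, inner_add_right, inner_smul_left, inner_smul_right,
      RCLike.conj_to_real, c.symm r]
    ring
  have h1 := nonneg_of_ineq c.cont_rate ht (fun r _ => hd r)
    (fun r _ => le_of_eq (by ring)) (hneg 0 le_rfl).ge
  have h2 := nonneg_of_ineq c.cont_rate ht (fun r _ => (hd r).neg)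
    (fun r _ => le_of_eq (by simp only [Pi.neg_apply]; ring)) (by simp [hneg 0 le_rfl])
  simp only [Pi.neg_apply] at h2
  linarith

theorem P_symm (t : ℝ) (x y : E) : ⟪c.P t x, y⟫ = ⟪x, c.P t y⟫ := by
  have := c.wronskian (c.Psi t x) (c.Psi t y) t
  rw [← c.P_Phi_apply, ← c.P_Phi_apply, c.Phi_Psi_apply, c.Phi_Psi_apply] at this
  exact this

theorem le_P {l : ℝ → ℝ} (hl : c.Lower l) (t : ℝ) (x : E) :
    l t * ‖x‖ ^ 2 ≤ ⟪x, c.P t x⟫ := by
  have := c.lower_form hl (c.Psi t x) t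
  rw [← c.P_Phi_apply, c.Phi_Psi_apply] at this
  exact this

theorem P_nonneg (t : ℝ) (x : E) : 0 ≤ ⟪x, c.P t x⟫ := by
  simpa using c.le_P c.lower_zero t x

theorem P_le {h : ℝ → ℝ} (hh : c.Upper h) (t : ℝ) (x : E) :
    ⟪x, c.P t x⟫ ≤ h t * ‖x‖ ^ 2 := by
  have hneg : ∀ t ≤ 0, 0 ≤ h t * ‖x‖ ^ 2 - ⟪x, c.P t x⟫ := by
    intro t ht
    simp [c.P_start ht, inner_smul_right]
    nlinarith [hh.start t ht, sq_nonneg ‖x‖]
  rcases le_total t 0 with ht | ht
  · linarith [hneg t ht]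
  suffices 0 ≤ h t * ‖x‖ ^ 2 - ⟪x, c.P t x⟫ by linarith
  refine nonneg_of_ineq (f := fun r => h r * ‖x‖ ^ 2 - ⟪x, c.P r x⟫)
    (a := fun r => 2 + c.s r + 2 * h r) (c.cont_rate.add (hh.diff.continuous.const_smul (2:ℝ)))
    ht (fun r _ => ((hh.diff r).hasDerivAt.mul_const _).sub
      ((hasDerivAt_const r x).inner ℝ ((c.hasDerivAt_P r).clm_apply (hasDerivAt_const r x))))
    (fun r hr => ?_) (hneg 0 le_rfl)
  have h1 := hh.super r hr.1 x
  have h2 := real_inner_self_nonneg (x := c.P r x - h r • x)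
  rw [inner_sub_left, inner_sub_right, inner_sub_right] at h2
  simp only [inner_smul_left, inner_smul_right, RCLike.conj_to_real,
    real_inner_self_eq_norm_sq] at h2
  have h3 : ⟪x, c.P r (c.P r x)⟫ = ‖c.P r x‖ ^ 2 := by
    rw [← c.P_symm r, real_inner_self_eq_norm_sq]
  simp only [sub_apply, smul_apply,
    mul_apply_eq_comp, inner_sub_right, inner_smul_right, map_zero, add_zero,
    inner_zero_left, h3]
  rw [real_inner_comm (c.P r x) x] at *
  nlinarith

/-- Growth of regular solutions from below. -/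
theorem exp_le_norm_Phi {l : ℝ → ℝ} (hl : c.Lower l) {r t : ℝ} (hrt : r ≤ t) (x : E) :
    Real.exp (∫ q in r..t, l q) * ‖c.Phi r x‖ ≤ ‖c.Phi t x‖ := by
  have h := exp_mul_le_of_ineq (f := fun q => ‖c.Phi q x‖ ^ 2) (a := fun q => -(2 * l q))
    (hl.diff.continuous.const_smul (2:ℝ)).neg hrt (fun q _ => (c.hasDerivAt_Phi_apply x q).norm_sq)
    (fun q _ => by have := c.lower_form hl x q; linarith)
  rw [intervalIntegral.integral_neg, neg_neg, intervalIntegral.integral_const_mul,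
    show (2 * ∫ q in r..t, l q) = (∫ q in r..t, l q) + (∫ q in r..t, l q) by ring, Real.exp_add] at h
  exact pow_le_pow_iff_left₀ (by positivity) (norm_nonneg _) (two_ne_zero) |>.1 (le_trans
    (le_of_eq (by ring)) h)

/-- Growth of regular solutions from above. -/
theorem norm_Phi_le_exp {h : ℝ → ℝ} (hh : c.Upper h) {r t : ℝ} (hrt : r ≤ t) (x : E) :
    ‖c.Phi t x‖ ≤ Real.exp (∫ q in r..t, h q) * ‖c.Phi r x‖ := by
  have hc : Continuous h := hh.diff.continuous
  have h1 := exp_mul_le_of_ineq (f := fun q => -‖c.Phi q x‖ ^ 2) (a := fun q => -(2 * h q))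
    (hc.const_smul (2:ℝ)).neg hrt (fun q _ => (c.hasDerivAt_Phi_apply x q).norm_sq.neg)
    (fun q _ => by
      have := c.P_le hh q (c.Phi q x)
      rw [c.P_Phi_apply] at this
      linarith)
  rw [intervalIntegral.integral_neg, neg_neg, intervalIntegral.integral_const_mul,
    show (2 * ∫ q in r..t, h q) = (∫ q in r..t, h q) + (∫ q in r..t, h q) by ring, Real.exp_add] at h1
  exact pow_le_pow_iff_left₀ (norm_nonneg _) (by positivity) (two_ne_zero) |>.1 (by linarith)

theorem Phi_prop (t r : ℝ) (x : E) : c.prop t r (c.Phi r x) = c.Phi t x := by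
  simp [prop, c.Psi_Phi_apply]

/-- Transfer backwards contracts at least at the lower rate. -/
theorem norm_prop_le_exp_neg {l : ℝ → ℝ} (hl : c.Lower l) {t r : ℝ} (htr : t ≤ r) (x : E) :
    ‖c.prop t r x‖ ≤ Real.exp (-∫ q in t..r, l q) * ‖x‖ := by
  have h := c.exp_le_norm_Phi hl htr (c.Psi r x)
  rw [c.Phi_Psi_apply] at h
  rw [Real.exp_neg, inv_mul_eq_div, le_div_iff₀ (Real.exp_pos _), mul_comm]
  simpa [prop] using h

/-- Transfer forwards expands at most at the upper rate. -/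
theorem norm_prop_le_exp {h : ℝ → ℝ} (hh : c.Upper h) {t r : ℝ} (hrt : r ≤ t) (x : E) :
    ‖c.prop t r x‖ ≤ Real.exp (∫ q in r..t, h q) * ‖x‖ := by
  simpa [prop, c.Phi_Psi_apply] using c.norm_Phi_le_exp hh hrt (c.Psi r x)

/-- Transfer forwards expands at least at the lower rate. -/
theorem exp_mul_le_norm_prop {l : ℝ → ℝ} (hl : c.Lower l) {t r : ℝ} (hrt : r ≤ t) (x : E) :
    Real.exp (∫ q in r..t, l q) * ‖x‖ ≤ ‖c.prop t r x‖ := by
  simpa [prop, c.Phi_Psi_apply] using c.exp_le_norm_Phi hl hrt (c.Psi r x)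

/-- Transfer backwards contracts at most at the upper rate. -/
theorem exp_neg_mul_le_norm_prop {h : ℝ → ℝ} (hh : c.Upper h) {t r : ℝ} (htr : t ≤ r) (x : E) :
    Real.exp (-∫ q in t..r, h q) * ‖x‖ ≤ ‖c.prop t r x‖ := by
  have h1 := c.norm_Phi_le_exp hh htr (c.Psi r x)
  rw [c.Phi_Psi_apply] at h1
  rw [Real.exp_neg, inv_mul_eq_div, div_le_iff₀ (Real.exp_pos _), mul_comm]
  simpa [prop] using h1

end Coeff

end

end Vale.Agent.P225.ODE
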